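import Vale.Agent.P090.Pairing

/-!
No operator exists on a piece.
-/

namespace Vale.Agent.P090

open Classical Finset

noncomputable section

variable {k : ℕ}

/-- The coefficients of intact paths, weighted at the fibre coordinate of the base point. -/
def fI (s : (Σ j, Fib k j) → ℝ) : Coef k := fun g j u =>
  if Intact k j g u then tent k g * s ⟨j, u⟩ else 0

/-- The kernel of intact paths. -/
def kI (x : Base k) (s : (Σ j, Fib k j) → ℝ) : Pt k → ℝ := kern x (fI s) fun _ => 0

theorem small_I (s : (Σ j, Fib k j) → ℝ) : Small k (fI s) fun _ => 0 := fun g hg =>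
  ⟨rfl, fun j u => by simp [fI, tent_eq_zero hg]⟩

theorem abs_fI_le {s : (Σ j, Fib k j) → ℝ} (hs : ∀ a, |s a| ≤ 1) (g : FreeGroup (Letter k))
    (j : ℕ) (u : Fib k j) : |fI s g j u| ≤ 1 := by
  unfold fI; split_ifs
  · rw [abs_mul, abs_of_nonneg (tent_nonneg g)]
    exact mul_le_one₀ (tent_le_one g) (abs_nonneg _) (hs _)
  · simp

theorem fI_edge {s : (Σ j, Fib k j) → ℝ} (hs : ∀ a, |s a| ≤ 1) {g : FreeGroup (Letter k)} {j : ℕ}
    {u : Fib k j} {e : Letter k × Bool} (he : Present k j e.1 (fibHom k j g u)) :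
    |fI s (el e * g) j u - fI s g j u| ≤ 1 / rad k := by
  unfold fI
  rw [intact_left he]
  split_ifs
  · rw [← sub_mul, abs_mul]
    calc |tent k (el e * g) - tent k g| * |s ⟨j, u⟩| ≤ 1 / rad k * 1 :=
          mul_le_mul (tent_diff_left e g) (hs _) (abs_nonneg _) (by positivity)
      _ = _ := mul_one _
  · simp

theorem kI_lip {s : (Σ j, Fib k j) → ℝ} (hs : ∀ a, |s a| ≤ 1) (x : Base k) :
    LipP k (kI x s) (1 / anchorLen k) :=
  lip_unit (small_I s).supp (abs_fI_le hs) (fun _ => by simp)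
    (fun g j u => by simpa using abs_fI_le hs g j u)
    fun _ _ _ _ he => (fI_edge hs he).trans (inv_rad_le_inv_anchor k)

theorem kI_le (op : Op k) {s : (Σ j, Fib k j) → ℝ} (hs : ∀ a, |s a| ≤ 1) {N : ℕ} (x : Base k)
    (w : Fib k N) : |op.pair (Sum.inl ⟨N, x, w⟩) (kI x s)| ≤ 2 * lam k := by
  simpa [kI] using pair_unit op (kI_lip hs x) N w

/-- The weight at a single fibre point. -/
def dl (a : Σ j, Fib k j) : (Σ j, Fib k j) → ℝ := fun b => if b = a then 1 else 0

/-- The levels met by the measures. -/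
def Op.levels (op : Op k) : Finset ℕ :=
  op.B.image fun p => match p with
    | Sum.inl q => q.1
    | Sum.inr _ => 0

/-- The fibre points of the levels met by the measures. -/
def Op.idx (op : Op k) : Finset (Σ j, Fib k j) := op.levels.sigma fun _ => univ

/-- The averaged operator between fibre points. -/
def Op.K (op : Op k) (N : ℕ) (w : Fib k N) (a : Σ j, Fib k j) : ℝ :=
  ∑ x : Base k, op.pair (Sum.inl ⟨N, x, w⟩) (kI x (dl a))

theorem K_lin (op : Op k) (N : ℕ) (w : Fib k N) (s : (Σ j, Fib k j) → ℝ) :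
    ∑ x : Base k, op.pair (Sum.inl ⟨N, x, w⟩) (kI x s) = ∑ a ∈ op.idx, s a * op.K N w a := by
  simp only [Op.K, mul_sum]
  rw [sum_comm]
  refine sum_congr rfl fun x _ => ?_
  simp only [← pair_mul]
  rw [← pair_sum]
  refine pair_congr op _ fun q hq => ?_
  rcases q with ⟨j, z, v⟩ | z
  · have hj : j ∈ op.levels := mem_image.mpr ⟨_, hq, rfl⟩
    by_cases hz : Near k x z
    · obtain ⟨g, hg, hgz⟩ := hz
      simp only [kI, kern_lift hg hgz, fI]
      split_ifs
      · rw [sum_eq_single ⟨j, (fibHom k j g)⁻¹ v⟩]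
        · simp [dl, mul_comm]
        · intro b _ hb
          have : (⟨j, (fibHom k j g)⁻¹ v⟩ : Σ j, Fib k j) ≠ b := Ne.symm hb
          rw [dl, if_neg this, mul_zero, mul_zero]
        · intro h
          exact absurd (by simp [Op.idx, hj]) h
      · simp
    · simp [kI, kern_lift_far hz]
  · by_cases hz : Near k x z
    · obtain ⟨g, hg, hgz⟩ := hz
      simp [kI, kern_anchor hg hgz]
    · simp [kI, kern_anchor_far hz]

theorem sum_base (N : ℕ) (F : Base k → Fib k N → ℝ) :
    ∑ a : Base k × Fib k N, F a.1 a.2 = ∑ w, ∑ x, F x w := by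
  rw [Fintype.sum_prod_type, sum_comm]

theorem total_lower (op : Op k) (N : ℕ) :
    (Fintype.card (Base k × Fib k N) : ℝ) * (1 - 2 / 10000 - 1 / 100) ≤
      ∑ w, ∑ a ∈ op.idx, op.K N w a := by
  have hR := rad_pos' k
  have hG := anchorLen_pos k
  have key : ∀ a : Base k × Fib k N, 1 - 2 / 10000 ≤
      op.pair (Sum.inl ⟨N, a.1, a.2⟩) (kI a.1 fun _ => 1) +
        op.pair (Sum.inl ⟨N, a.1, a.2⟩)
          (kern a.1 (fBad fun _ => 1) (fAnc fun _ => 1)) := by
    intro a
    rw [← pair_add]
    have hlip : LipP k (kern a.1 (fun g _ _ => tent k g) (tent k)) (1 / rad k) := by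
      refine kern_lip zero_le_one (by positivity) (fun g hg _ _ => tent_eq_zero (by omega))
        (fun g _ _ => by rw [abs_of_nonneg (tent_nonneg g)]; exact tent_le_one g)
        (fun g => by rw [abs_of_nonneg (tent_nonneg g)]; exact tent_le_one g)
        (fun g j u e _ => tent_diff_left e g) (fun g j u => ?_) ?_
      · rw [sub_self, abs_zero]; positivity
      · rw [div_mul_cancel₀ _ hR.ne']
    have h1 := near_anchor op (div_pos one_pos hR) hlip N a.1 a.2
    rw [kern_at_base, tent_one, lam_anchor_div_rad] at h1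
    have h2 : (fun q => kI a.1 (fun _ => 1) q +
        kern a.1 (fBad fun _ => 1) (fAnc fun _ => 1) q) =
        kern a.1 (fun g _ _ => tent k g) (tent k) := by
      funext q
      rw [kI, kern_add]
      congr 1
      · funext g j u; unfold fI fBad; split_ifs <;> simp
      · funext g; simp [fAnc]
    rw [h2]
    linarith [(abs_le.mp h1).1]
  have h3 := sum_le_sum (s := univ) fun a _ => key a
  rw [sum_add_distrib, sum_const, card_univ, nsmul_eq_mul,
    sum_base N fun x w => op.pair (Sum.inl ⟨N, x, w⟩) (kI x fun _ => 1)] at h3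
  simp only [K_lin, one_mul] at h3
  have h4 := (abs_le.mp (bad_small op N)).2
  rw [Op.bad] at h4
  linarith

theorem sum_idx_gg (op : Op k) (i : Fin 4) (F : (Σ j, Fib k j) → ℝ) :
    ∑ a ∈ op.idx, F ⟨a.1, gg i a.2⟩ = ∑ a ∈ op.idx, F a := by
  rw [Op.idx, sum_sigma, sum_sigma]
  exact sum_congr rfl fun j _ => Equiv.sum_comp (gg i) fun u => F ⟨j, u⟩

theorem numCopy_pos (k : ℕ) : 0 < numCopy k := by
  rw [numCopy_eq, numCut_eq]; simp [lam]

theorem K_invariant (op : Op k) (N : ℕ) (i : Fin 4) (w : Fib k N) :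
    ∑ a ∈ op.idx, |op.K N (gg i w) ⟨a.1, gg i a.2⟩ - op.K N w a| ≤
      Fintype.card (Base k) * (6 / 10000) := by
  set e : Letter k × Bool := (Sum.inl (i, ⟨0, numCopy_pos k⟩), true) with he
  have hfib : ∀ j, fibHom k j (el e) = gg i := fun j => FreeGroup.lift_apply_of
  set d := fun a : Σ j, Fib k j => op.K N (gg i w) ⟨a.1, gg i a.2⟩ - op.K N w a
  set s : (Σ j, Fib k j) → ℝ := fun a => if 0 ≤ d a then 1 else -1 with hs
  set s' : (Σ j, Fib k j) → ℝ := fun a => s ⟨a.1, (gg i).symm a.2⟩ with hs'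
  have hs1 : ∀ a, |s a| ≤ 1 := fun a => by simp only [hs]; split_ifs <;> simp
  have h1 : ∑ a ∈ op.idx, |d a| = (∑ a ∈ op.idx, s' a * op.K N (gg i w) a) -
      ∑ a ∈ op.idx, s a * op.K N w a := by
    rw [← sum_idx_gg op i fun a => s' a * op.K N (gg i w) a, ← sum_sub_distrib]
    refine sum_congr rfl fun a _ => ?_
    simp only [hs', Equiv.symm_apply_apply, Sigma.eta, ← mul_sub, hs]
    split_ifs with h
    · rw [one_mul]; exact abs_of_nonneg h
    · rw [neg_one_mul]; exact abs_of_neg (not_le.mp h)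
  change ∑ a ∈ op.idx, |d a| ≤ _
  rw [h1, ← K_lin, ← K_lin, ← Equiv.sum_comp (Equiv.mulLeft (rho k (el e))),
    ← sum_sub_distrib]
  refine (le_abs_self _).trans ((abs_sum_le_sum_abs _ _).trans ?_)
  rw [← card_univ, ← nsmul_eq_mul, ← sum_const]
  refine sum_le_sum fun x _ => ?_
  have hmove : (Sum.inl ⟨N, Equiv.mulLeft (rho k (el e)) x, gg i w⟩ : Pt k) = move k e N x w := by
    simp [move, hfib]
  rw [hmove]
  refine shift_pair op x w e trivial (small_I s) (small_I s') (kI_lip (fun a => hs1 _) _)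
    (fun g j u => ?_) fun g => by simp
  have hu : fibHom k j (el (flipL e)) (fibHom k j (el e) u) = u := by
    rw [el_flipL, MonoidHom.map_inv]; exact Equiv.symm_apply_apply _ _
  have hi := (intact_right (g := g) (e := flipL e) (u := fibHom k j (el e) u)).1
    (show Present k j (Sum.inl _) _ from trivial)
  rw [hu] at hi
  have hsu : s' ⟨j, fibHom k j (el e) u⟩ = s ⟨j, u⟩ := by
    simp [hs', hfib]
  unfold fI
  simp only [hi, hsu]
  split_ifs
  · rw [← sub_mul, abs_mul]
    calc _ ≤ 1 / (rad k : ℝ) * 1 :=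
          mul_le_mul (tent_diff_right g _) (hs1 _) (abs_nonneg _) (by positivity)
      _ = _ := mul_one _
  · simp

/-- The indicator of marked points. -/
def yes (a : Σ j, Fib k j) : ℝ := if Marked k a.1 a.2 then 1 else 0

/-- The indicator of unmarked points. -/
def no (a : Σ j, Fib k j) : ℝ := if Marked k a.1 a.2 then 0 else 1

theorem card_val_lt {p h : ℕ} [NeZero p] (hh : h ≤ p) :
    (univ.filter fun a : ZMod p => a.val < h).card = h := by
  rw [← card_map ⟨ZMod.val, ZMod.val_injective p⟩]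
  refine (congrArg Finset.card ?_).trans (card_range h)
  ext n
  simp only [mem_map, mem_filter, mem_univ, true_and, Function.Embedding.coeFn_mk, mem_range]
  constructor
  · rintro ⟨a, ha, rfl⟩; exact ha
  · intro hn
    exact ⟨n, by rwa [ZMod.val_natCast_of_lt (hn.trans_le hh)],
      ZMod.val_natCast_of_lt (hn.trans_le hh)⟩

theorem marked_density (k : ℕ) (N j : ℕ) :
    |(∑ w : Fib k N, yes ⟨N, w⟩) / Fintype.card (Fib k N) *
      ((∑ u : Fib k j, no ⟨j, u⟩) / Fintype.card (Fib k j)) - 1 / 4| ≤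
        1 / (10000 * (lam k : ℝ)) := by
  have key : ∀ j, ∃ t : ℝ, 0 ≤ t ∧ t ≤ 1 / (2 * (10000 * (lam k : ℝ))) ∧
      (∑ u : Fib k j, yes ⟨j, u⟩) / Fintype.card (Fib k j) = 1 / 2 - t ∧
      (∑ u : Fib k j, no ⟨j, u⟩) / Fintype.card (Fib k j) = 1 / 2 + t := by
    intro j
    set p := pr k j with hp
    have hyes : (∑ u : Fib k j, yes ⟨j, u⟩) = ((p / 2 : ℕ) : ℝ) * p := by
      simp only [yes]
      rw [sum_boole]
      have : (univ.filter fun u : Fib k j => Marked k j u) =
          (univ.filter fun a : ZMod p => a.val < p / 2) ×ˢ univ := by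
        ext u
        simp only [mem_filter, mem_univ, true_and, mem_product, and_true]
        rfl
      rw [this, card_product, card_val_lt (Nat.div_le_self p 2), card_univ, ZMod.card,
        Nat.cast_mul]
    have hcard : (Fintype.card (Fib k j) : ℝ) = p * p := by simp [hp]
    have hno : (∑ u : Fib k j, no ⟨j, u⟩) = p * p - ((p / 2 : ℕ) : ℝ) * p := by
      rw [← hyes, eq_sub_iff_add_eq, ← sum_add_distrib, ← hcard]
      have : ∀ u : Fib k j, no ⟨j, u⟩ + yes ⟨j, u⟩ = 1 := fun u => by
        simp only [yes, no]; split_ifs <;> simp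
      simp [this]
    have hpl : 10000 * (lam k : ℝ) ≤ p := by
      have := big_le_pr k j
      rw [big_eq] at this
      exact_mod_cast this
    have hlam := two_le_lam k
    have hp0 : (0 : ℝ) < p := by linarith
    have h1 : 2 * ((p / 2 : ℕ) : ℝ) ≤ p := by exact_mod_cast (show 2 * (p / 2) ≤ p by omega)
    have h2 : (p : ℝ) ≤ 2 * ((p / 2 : ℕ) : ℝ) + 1 := by
      exact_mod_cast (show p ≤ 2 * (p / 2) + 1 by omega)
    refine ⟨1 / 2 - ((p / 2 : ℕ) : ℝ) / p, ?_, ?_, ?_, ?_⟩
    · rw [sub_nonneg, div_le_iff₀ hp0]; linarith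
    · refine le_trans ?_ (one_div_le_one_div_of_le (by positivity)
        (mul_le_mul_of_nonneg_left hpl two_pos.le))
      rw [sub_le_iff_le_add, div_add_div _ _ (by positivity) hp0.ne',
        div_le_div_iff₀ two_pos (by positivity)]
      nlinarith
    · rw [hyes, hcard]; field_simp; ring
    · rw [hno, hcard]; field_simp; ring
  obtain ⟨a, ha, ha', hae, -⟩ := key N
  obtain ⟨b, hb, hb', -, hbe⟩ := key j
  rw [hae, hbe]
  set δ := 1 / (2 * (10000 * (lam k : ℝ))) with hδ
  have hlam := two_le_lam k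
  have e : 1 / (10000 * (lam k : ℝ)) = 2 * δ := by rw [hδ]; field_simp
  have hδ1 : δ ≤ 1 / 2 := by
    rw [hδ]; exact one_div_le_one_div_of_le two_pos (by linarith)
  rw [e, abs_le]
  constructor <;> nlinarith [mul_nonneg ha hb, mul_le_mul ha' hb' hb (by linarith)]

theorem signal_lower (op : Op k) {N : ℕ} (hN : N ∉ op.levels) :
    (Fintype.card (Base k × Fib k N) : ℝ) * (23 / 100) ≤
      ∑ w, yes ⟨N, w⟩ * ∑ a ∈ op.idx, no a * op.K N w a := by
  set T : ℝ := (Fintype.card (Base k × Fib k N) : ℝ) with hT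
  have hT' : T = Fintype.card (Fib k N) * Fintype.card (Base k) := by
    rw [hT, Fintype.card_prod]; push_cast; ring
  set θ := fun j => ∑ p : Fib k N × Fib k j, op.K N p.1 ⟨j, p.2⟩ with hθ
  set dev := fun j => ∑ i, ∑ p : Fib k N × Fib k j,
    |op.K N (gg i p.1) ⟨j, gg i p.2⟩ - op.K N p.1 ⟨j, p.2⟩| with hdev
  have hswap : ∀ F : Fib k N → (Σ j, Fib k j) → ℝ, ∑ w, ∑ a ∈ op.idx, F w a =
      ∑ j ∈ op.levels, ∑ p : Fib k N × Fib k j, F p.1 ⟨j, p.2⟩ := fun F => by
    simp only [Op.idx, sum_sigma]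
    rw [Finset.sum_comm]
    exact sum_congr rfl fun j _ =>
      (Fintype.sum_prod_type (fun p : Fib k N × Fib k j => F p.1 ⟨j, p.2⟩)).symm
  have hlevel : ∀ j ∈ op.levels, θ j / 4 - 1 / (10000 * (lam k : ℝ)) * |θ j| - 7 * dev j ≤
      ∑ p : Fib k N × Fib k j, yes ⟨N, p.1⟩ * (no ⟨j, p.2⟩ * op.K N p.1 ⟨j, p.2⟩) := by
    intro j hj
    have hgap := gg_l1_pair (pr_coprime k (show N ≠ j from fun h => hN (h ▸ hj)))
      fun p : Fib k N × Fib k j => op.K N p.1 ⟨j, p.2⟩
    set C : ℝ := (Fintype.card (Fib k N × Fib k j) : ℝ) with hC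
    set y : Fib k N × Fib k j → ℝ := fun p => yes ⟨N, p.1⟩ * no ⟨j, p.2⟩ with hy
    have hy01 : ∀ p, |y p| ≤ 1 := fun p => by
      simp only [hy, yes, no]; split_ifs <;> simp
    have hρ : |(∑ p, y p) / C - 1 / 4| ≤ 1 / (10000 * (lam k : ℝ)) := by
      refine le_trans (le_of_eq ?_) (marked_density k N j)
      rw [hC, Fintype.card_prod, Nat.cast_mul, ← mul_div_mul_comm, Fintype.sum_mul_sum]
      simp only [hy, Fintype.sum_prod_type]
    have hsplit : ∑ p, y p * op.K N p.1 ⟨j, p.2⟩ =
        (∑ p, y p) * (θ j / C) + ∑ p, y p * (op.K N p.1 ⟨j, p.2⟩ - θ j / C) := by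
      rw [sum_mul, ← sum_add_distrib]
      exact sum_congr rfl fun p _ => by ring
    have herr : |∑ p, y p * (op.K N p.1 ⟨j, p.2⟩ - θ j / C)| ≤ 7 * dev j := by
      refine (abs_sum_le_sum_abs _ _).trans (le_trans (sum_le_sum fun p _ => ?_) hgap)
      rw [abs_mul]
      exact mul_le_of_le_one_left (abs_nonneg _) (hy01 p)
    have hmain : |(∑ p, y p) * (θ j / C) - θ j / 4| ≤ 1 / (10000 * (lam k : ℝ)) * |θ j| := by
      rw [show (∑ p, y p) * (θ j / C) - θ j / 4 = ((∑ p, y p) / C - 1 / 4) * θ j by ring,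
        abs_mul]
      exact mul_le_mul_of_nonneg_right hρ (abs_nonneg _)
    simp only [← mul_assoc]
    change _ ≤ ∑ p, y p * op.K N p.1 ⟨j, p.2⟩
    rw [hsplit]
    linarith [(abs_le.mp herr).1, (abs_le.mp hmain).1]
  have hdev' : ∑ j ∈ op.levels, dev j ≤ T * (24 / 10000) := by
    simp only [hdev]
    rw [sum_comm]
    refine le_trans (sum_le_sum fun i _ => ?_)
      (le_of_eq (show ∑ _i : Fin 4, T * (6 / 10000) = T * (24 / 10000) by simp; ring))
    rw [← hswap fun w a => |op.K N (gg i w) ⟨a.1, gg i a.2⟩ - op.K N w a|]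
    refine (sum_le_sum fun w _ => K_invariant op N i w).trans (le_of_eq ?_)
    rw [sum_const, card_univ, nsmul_eq_mul, hT']; ring
  have habs : ∑ j ∈ op.levels, |θ j| ≤ T * (2 * lam k) := by
    set σ : (Σ j, Fib k j) → ℝ := fun a => if 0 ≤ θ a.1 then 1 else -1 with hσ
    have hσ1 : ∀ a, |σ a| ≤ 1 := fun a => by simp only [hσ]; split_ifs <;> simp
    have h1 : ∑ j ∈ op.levels, |θ j| = ∑ w, ∑ a ∈ op.idx, σ a * op.K N w a := by
      rw [hswap]
      refine sum_congr rfl fun j _ => ?_
      by_cases h : 0 ≤ θ j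
      · simp only [hσ, if_pos h, one_mul]
        exact abs_of_nonneg h
      · simp only [hσ, if_neg h, neg_one_mul, sum_neg_distrib]
        exact abs_of_neg (not_le.mp h)
    simp only [← K_lin] at h1
    rw [h1, ← sum_base N fun x w => op.pair (Sum.inl ⟨N, x, w⟩) (kI x σ), hT, ← card_univ,
      ← nsmul_eq_mul, ← sum_const]
    exact sum_le_sum fun a _ => (abs_le.mp (kI_le op hσ1 a.1 a.2)).2
  have hlow := total_lower op N
  rw [hswap fun w a => op.K N w a, ← hT] at hlow
  change _ ≤ ∑ j ∈ op.levels, θ j at hlow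
  simp only [mul_sum]
  rw [hswap fun w a => yes ⟨N, w⟩ * (no a * op.K N w a)]
  refine le_trans ?_ (sum_le_sum hlevel)
  simp only [sum_sub_distrib, ← sum_div, ← mul_sum]
  have hc : 1 / (10000 * (lam k : ℝ)) * (T * (2 * lam k)) = T * (2 / 10000) := by
    have := two_le_lam k
    field_simp
  have := mul_le_mul_of_nonneg_left habs
    (show (0 : ℝ) ≤ 1 / (10000 * (lam k : ℝ)) by positivity)
  have : (0 : ℝ) ≤ T := Nat.cast_nonneg _
  linarith

theorem cut_sum_le (op : Op k) {N : ℕ} (x : Base k) (w : Fib k N) (hw : Marked k N w) :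
    op.pair (Sum.inl ⟨N, x, w⟩) (kI x no) + ∑ c : Fin (numCut k),
      op.pair (Sum.inl ⟨N, rho k (el (Sum.inr c, true)) * x, w⟩)
        (kI (rho k (el (Sum.inr c, true)) * x) no) ≤
      2 * lam k + numCut k * (1 / 10000) := by
  set e : Fin (numCut k) → Letter k × Bool := fun c => (Sum.inr c, true) with he
  set p : Pt k := Sum.inl ⟨N, x, w⟩ with hp
  have hno : ∀ a : Σ j, Fib k j, |no a| ≤ 1 := fun a => by
    simp only [no]; split_ifs <;> simp
  have hedge : ∀ c, op.pair (Sum.inl ⟨N, rho k (el (e c)) * x, w⟩) (kI (rho k (el (e c)) * x) no) ≤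
      op.pair p (kI (rho k (el (e c)) * x) no) + 1 / 10000 := by
    intro c
    have h : |op.pair (move k (e c) N x w) (kI (rho k (el (e c)) * x) no) -
        op.pair p (kI (rho k (el (e c)) * x) no)| ≤ lam k * (1 / anchorLen k) :=
      op.edge _ _ (div_pos one_pos (anchorLen_pos k)) (kI_lip hno _) N x w (e c) hw
    have hm : move k (e c) N x w = Sum.inl ⟨N, rho k (el (e c)) * x, w⟩ := by
      simp [move, he, fibHom_cut]
    rw [hm, lam_div_anchor] at h
    linarith [(abs_le.mp h).2]
  -- the sum of the shifted kernels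
  set term : Fin (numCut k) → Coef k := fun c g j u =>
    fI no (g * el (flipL (e c))) j (fibHom k j (el (e c)) u) with hterm
  set F : Coef k := fun g j u => fI no g j u + ∑ c, term c g j u with hF
  have hval : ∀ q, kI x no q + ∑ c, kI (rho k (el (e c)) * x) no q = kern x F (fun _ => 0) q := by
    intro q
    simp only [kI, kern_shift _ (small_I no) q]
    rw [kern_sum, kern_add]
    congr 1
    funext g; simp
  have hzero : ∀ g j u c, firstStep g ≠ some (e c) → term c g j u = 0 := by
    intro g j u c hne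
    have hfirst := (firstStep_flip g (e c)).mpr hne
    simp only [hterm, he, fibHom_cut, Equiv.Perm.one_apply, fI, no]
    split_ifs with h hM
    · simp
    · exact absurd (intact_first h hfirst) hM
    · rfl
  have hbound : ∀ g j u, |F g j u| ≤ 1 := by
    intro g j u
    by_cases hc : ∃ c, firstStep g = some (e c)
    · obtain ⟨c, hc⟩ := hc
      have h0 : fI no g j u = 0 := by
        unfold fI no
        split_ifs with h hM
        · simp
        · exact absurd (intact_first h hc) hM
        · rfl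
      simp only [hF, h0, zero_add]
      rw [sum_eq_single c (fun c' _ hc' => hzero g j u c' fun h => hc' (by
          have := hc.symm.trans h
          simp only [he, Option.some.injEq, Prod.mk.injEq, Sum.inr.injEq] at this
          exact this.1.symm))
        (fun h => absurd (mem_univ c) h)]
      exact abs_fI_le hno _ _ _
    · push Not at hc
      simp only [hF, sum_eq_zero fun c _ => hzero g j u c (hc c), add_zero]
      exact abs_fI_le hno _ _ _
  have hsupp : Supp k F := by
    intro g hg j u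
    have hR := rad_pos k
    simp only [hF, hterm, (small_I no g (by omega)).2, zero_add]
    refine sum_eq_zero fun c _ => (small_I no _ ?_).2 _ _
    have := norm_le_mul_el g (flipL (e c))
    omega
  have hFedge : ∀ g j u e', Present k j e'.1 (fibHom k j g u) →
      |F (el e' * g) j u - F g j u| ≤ 1 / anchorLen k := by
    intro g j u e' he'
    have h1 : ∀ c, |term c (el e' * g) j u - term c g j u| ≤ 1 / rad k := by
      intro c
      simp only [hterm, mul_assoc]
      refine fI_edge hno ?_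
      rw [el_flipL, ← Equiv.Perm.mul_apply, ← MonoidHom.map_mul, inv_mul_cancel_right]
      exact he'
    have h2 : |F (el e' * g) j u - F g j u| ≤ 1 / rad k + ∑ _c : Fin (numCut k), 1 / (rad k : ℝ) := by
      simp only [hF]
      rw [add_sub_add_comm, ← sum_sub_distrib]
      exact (abs_add_le _ _).trans (add_le_add (fI_edge hno he')
        ((abs_sum_le_sum_abs _ _).trans (sum_le_sum fun c _ => h1 c)))
    refine h2.trans ?_
    have := two_le_lam k
    rw [sum_const, card_univ, Fintype.card_fin, nsmul_eq_mul, numCut_eq, rad_cast, anchorLen_cast]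
    push_cast
    field_simp
    linarith
  have hlip := lip_unit (x := x) (fA := fun _ => 0) hsupp hbound (fun _ => by simp)
    (fun g j u => by simpa using hbound g j u) hFedge
  have hΦ := (abs_le.mp (pair_unit op hlip N w)).2
  rw [sub_zero, ← hp, pair_congr op p (fun q _ => (hval q).symm), pair_add, pair_sum] at hΦ
  have := sum_le_sum (s := univ) fun c _ => hedge c
  rw [sum_add_distrib, sum_const, card_univ, Fintype.card_fin, nsmul_eq_mul] at this
  linarith

theorem signal_upper (op : Op k) (N : ℕ) :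
    ((numCut k : ℝ) + 1) * ∑ w, yes ⟨N, w⟩ * ∑ a ∈ op.idx, no a * op.K N w a ≤
      (Fintype.card (Base k × Fib k N) : ℝ) * (2 * lam k + numCut k * (1 / 10000)) := by
  have hT : (Fintype.card (Base k × Fib k N) : ℝ) * (2 * lam k + numCut k * (1 / 10000)) =
      ∑ _w : Fib k N, ∑ _x : Base k, (2 * (lam k : ℝ) + numCut k * (1 / 10000)) := by
    simp only [sum_const, card_univ, nsmul_eq_mul, Fintype.card_prod, Nat.cast_mul]; ring
  rw [hT, mul_sum]
  refine sum_le_sum fun w _ => ?_
  by_cases hw : Marked k N w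
  · rw [show yes ⟨N, w⟩ = (1 : ℝ) from if_pos hw, one_mul, ← K_lin]
    refine le_trans (le_of_eq ?_) (sum_le_sum fun x _ => cut_sum_le op x w hw)
    rw [sum_add_distrib, sum_comm]
    have : ∀ c : Fin (numCut k), ∑ x : Base k,
        op.pair (Sum.inl ⟨N, rho k (el (Sum.inr c, true)) * x, w⟩)
          (kI (rho k (el (Sum.inr c, true)) * x) no) =
        ∑ x : Base k, op.pair (Sum.inl ⟨N, x, w⟩) (kI x no) := fun c =>
      Equiv.sum_comp (Equiv.mulLeft _) fun y => op.pair (Sum.inl ⟨N, y, w⟩) (kI y no)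
    simp only [this, sum_const, card_univ, Fintype.card_fin, nsmul_eq_mul]
    ring
  · rw [show yes ⟨N, w⟩ = (0 : ℝ) from if_neg hw, zero_mul, mul_zero]
    positivity

/-- No operator exists on a piece. -/
theorem no_op (k : ℕ) (op : Op k) : False := by
  obtain ⟨N, hN⟩ := Infinite.exists_notMem_finset op.levels
  have h1 := signal_lower op hN
  have h2 := signal_upper op N
  have hT : (1 : ℝ) ≤ (Fintype.card (Base k × Fib k N) : ℝ) := by
    exact_mod_cast Fintype.card_pos
  set T : ℝ := (Fintype.card (Base k × Fib k N) : ℝ)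
  have hlam := two_le_lam k
  have hH : (numCut k : ℝ) = 40 * lam k := by rw [numCut_eq]; push_cast; ring
  rw [hH] at h2
  have h3 := mul_le_mul_of_nonneg_left h1 (show (0 : ℝ) ≤ 40 * (lam k : ℝ) + 1 by positivity)
  have h4 := mul_le_mul hT hlam (by norm_num) (by linarith)
  linarith

end

end Vale.Agent.P090
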