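import Mathlib

/-!
Lipschitz-free spaces, the bounded approximation property, and finitely supported
representations of finite-rank operators on free spaces.
-/

open scoped ENNReal

namespace Vale.Agent.P090

variable {M : Type} [MetricSpace M] (o : M)

/-- The unit ball of `Lip₀(M)`. -/
abbrev LipBall : Type := {f : M → ℝ // LipschitzWith 1 f ∧ f o = 0}

/-- The bounded functions on the unit ball of `Lip₀(M)`, with the supremum norm. -/
abbrev Bdd : Type := lp (fun _ : LipBall o => ℝ) ∞

/-- The sup norm of Mathlib on `Bdd`, recorded under a short name. -/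
noncomputable instance bddGroup : NormedAddCommGroup (Bdd o) := inferInstance

/-- The pointwise operations of Mathlib on `Bdd`, recorded under a short name. -/
noncomputable instance bddSpace : NormedSpace ℝ (Bdd o) := inferInstance

/-- The evaluation functional at `x`, as a bounded function on the unit ball of `Lip₀(M)`. -/
noncomputable def delta (x : M) : Bdd o :=
  ⟨fun f => f.1 x, memℓp_infty ⟨dist x o, by
    rintro _ ⟨f, rfl⟩
    simpa [Real.dist_eq, f.2.2] using f.2.1.dist_le_mul x o⟩⟩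

/-- The Lipschitz-free space: the closed span of the evaluations in the dual of `Lip₀(M)`, the
dual norm being the supremum over the unit ball. -/
noncomputable abbrev Free : Submodule ℝ (Bdd o) :=
  (Submodule.span ℝ (Set.range (delta o))).topologicalClosure

/-- The induced norm of Mathlib on `Free`, recorded under a short name. -/
noncomputable instance freeGroup : NormedAddCommGroup (Free o) := inferInstance

/-- The bounded approximation property. -/
def HasBAP (X : Type*) [NormedAddCommGroup X] [NormedSpace ℝ X] : Prop :=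
  ∃ lam : ℝ, ∀ C : Set X, IsCompact C → ∀ ε : ℝ, 0 < ε →
    ∃ T : X →L[ℝ] X, FiniteDimensional ℝ (LinearMap.range T.toLinearMap) ∧ ‖T‖ ≤ lam ∧
      ∀ u ∈ C, ‖T u - u‖ < ε

theorem delta_apply (x : M) (f : LipBall o) : (delta o x : LipBall o → ℝ) f = f.1 x := rfl

theorem delta_mem (x : M) : delta o x ∈ Free o :=
  (Submodule.span ℝ (Set.range (delta o))).le_topologicalClosure (Submodule.subset_span ⟨x, rfl⟩)

/-- The evaluation as an element of the free space. -/
noncomputable def pt (x : M) : Free o := ⟨delta o x, delta_mem o x⟩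

theorem norm_delta_sub_le (x y : M) : ‖pt o x - pt o y‖ ≤ dist x y := by
  refine lp.norm_le_of_forall_le dist_nonneg fun f => ?_
  change ‖f.1 x - f.1 y‖ ≤ dist x y
  simpa [Real.dist_eq] using f.2.1.dist_le_mul x y

theorem norm_pt_le (x : M) : ‖pt o x‖ ≤ dist x o := by
  refine lp.norm_le_of_forall_le dist_nonneg fun f => ?_
  change ‖f.1 x‖ ≤ dist x o
  simpa [Real.dist_eq, f.2.2] using f.2.1.dist_le_mul x o

/-- Evaluation at a function in the unit ball of `Lip₀(M)`. -/
noncomputable def evalF (f : LipBall o) : Free o →ₗ[ℝ] ℝ where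
  toFun v := (v.1 : LipBall o → ℝ) f
  map_add' _ _ := rfl
  map_smul' _ _ := rfl

theorem evalF_pt (f : LipBall o) (x : M) : evalF o f (pt o x) = f.1 x := rfl

theorem abs_evalF_le (f : LipBall o) (v : Free o) : |evalF o f v| ≤ ‖v‖ :=
  lp.norm_apply_le_norm ENNReal.top_ne_zero v.1 f

/-- Elements of the free space are approximated by finitely supported measures. -/
theorem exists_finsupp_near (v : Free o) {δ : ℝ} (hδ : 0 < δ) :
    ∃ c : M →₀ ℝ, ‖v - c.sum fun x r => r • pt o x‖ ≤ δ := by
  obtain ⟨b, hb, hd⟩ := Metric.mem_closure_iff.mp v.2 δ hδ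
  obtain ⟨c, rfl⟩ := Finsupp.mem_span_range_iff_exists_finsupp.mp hb
  refine ⟨c, le_of_lt ?_⟩
  rw [dist_eq_norm] at hd
  have e : ((c.sum fun x r => r • pt o x : Free o) : lp (fun _ : LipBall o => ℝ) ∞) =
      c.sum fun x r => r • delta o x := by
    simp [Finsupp.sum, pt]
  calc ‖v - c.sum fun x r => r • pt o x‖
      = ‖((v - c.sum fun x r => r • pt o x : Free o) : lp (fun _ : LipBall o => ℝ) ∞)‖ := rfl
    _ < δ := by rw [Submodule.coe_sub, e]; exact hd

/-- A finite-rank operator is near one with values spanned by finitely many given vectors. -/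
theorem exists_finite_operator {N : Type} {X : Type*} [NormedAddCommGroup X] [NormedSpace ℝ X]
    (P : N → X) (hP : ∀ (v : X) (δ : ℝ), 0 < δ →
      ∃ c : N →₀ ℝ, ‖v - c.sum fun x r => r • P x‖ ≤ δ)
    (T : X →L[ℝ] X) (hT : FiniteDimensional ℝ (LinearMap.range T.toLinearMap)) {δ : ℝ}
    (hδ : 0 < δ) :
    ∃ (B : Finset N) (co : X →ₗ[ℝ] (N → ℝ)),
      ∀ v, ‖T v - ∑ q ∈ B, co v q • P q‖ ≤ δ * ‖v‖ := by
  set V := LinearMap.range T.toLinearMap with hV
  set b := Module.finBasis ℝ V
  set Φ : Fin (Module.finrank ℝ V) → (X →L[ℝ] ℝ) := fun i =>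
    (LinearMap.toContinuousLinearMap (b.coord i)).comp
      (T.codRestrict V fun x => LinearMap.mem_range_self T.toLinearMap x) with hΦ
  have hsum : ∀ v, T v = ∑ i, Φ i v • (b i : X) := by
    intro v
    have h := congrArg (Subtype.val : V → X) (b.sum_repr ⟨T v, LinearMap.mem_range_self _ v⟩)
    simp only [AddSubmonoidClass.coe_finsetSum, Submodule.coe_smul] at h
    exact h.symm
  set S := (∑ i, ‖Φ i‖) + 1 with hS
  have hS0 : 0 < S := by positivity
  choose c hc using fun i => hP (b i : X) (δ / S) (div_pos hδ hS0)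
  classical
  refine ⟨Finset.univ.biUnion fun i => (c i).support,
    LinearMap.pi fun q => ∑ i, c i q • (Φ i).toLinearMap, fun v => ?_⟩
  have e : ∑ q ∈ Finset.univ.biUnion (fun i => (c i).support),
      (LinearMap.pi (fun q => ∑ i, c i q • (Φ i).toLinearMap)) v q • P q =
        ∑ i, Φ i v • (c i).sum (fun x r => r • P x) := by
    simp only [LinearMap.pi_apply, LinearMap.coe_sum, Finset.sum_apply, LinearMap.smul_apply,
      ContinuousLinearMap.coe_coe, smul_eq_mul, Finset.sum_smul]
    rw [Finset.sum_comm]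
    refine Finset.sum_congr rfl fun i _ => ?_
    rw [Finsupp.sum, Finset.smul_sum]
    refine (Finset.sum_subset (Finset.subset_biUnion_of_mem (fun i => (c i).support)
      (Finset.mem_univ i)) fun x _ hx => ?_).symm.trans
      (Finset.sum_congr rfl fun x _ => ?_)
    · simp [Finsupp.notMem_support_iff.mp hx]
    · rw [smul_smul, mul_comm]
  rw [e, hsum, ← Finset.sum_sub_distrib]
  refine (norm_sum_le _ _).trans ?_
  calc ∑ i, ‖Φ i v • (b i : X) - Φ i v • (c i).sum fun x r => r • P x‖
      ≤ ∑ i, ‖Φ i‖ * ‖v‖ * (δ / S) := Finset.sum_le_sum fun i _ => by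
        rw [← smul_sub, norm_smul]
        exact mul_le_mul ((Φ i).le_opNorm v) (hc i) (norm_nonneg _) (by positivity)
    _ = (∑ i, ‖Φ i‖) * (δ / S) * ‖v‖ := by rw [Finset.sum_mul, Finset.sum_mul]; congr 1; ext; ring
    _ ≤ S * (δ / S) * ‖v‖ := by gcongr; linarith
    _ = δ * ‖v‖ := by field_simp

/-- The abstract form of `exists_measures`. -/
theorem measures_of_eval {X : Type*} [NormedAddCommGroup X] [NormedSpace ℝ X] (P : M → X)
    (E : LipBall o → X →ₗ[ℝ] ℝ) (hE : ∀ f v, |E f v| ≤ ‖v‖) (hEP : ∀ f x, E f (P x) = f.1 x)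
    (hdist : ∀ x y, ‖P x - P y‖ ≤ dist x y) (hnorm : ∀ x, ‖P x‖ ≤ dist x o)
    (hnear : ∀ (v : X) (δ : ℝ), 0 < δ → ∃ c : M →₀ ℝ, ‖v - c.sum fun x r => r • P x‖ ≤ δ)
    (T : X →L[ℝ] X)
    (hT : FiniteDimensional ℝ (LinearMap.range T.toLinearMap)) {lam : ℝ} (hlam : ‖T‖ ≤ lam)
    (A : Finset M) {η : ℝ} (hη : 0 < η) (hA : ∀ a ∈ A, ‖T (P a) - P a‖ ≤ η) :
    ∃ (B : Finset M) (ν : M → M → ℝ), ∀ (φ : M → ℝ) (L : ℝ), 0 < L →
      (∀ p q, |φ p - φ q| ≤ L * dist p q) →
      (∀ p p', |(∑ q ∈ B, ν p q * φ q) - ∑ q ∈ B, ν p' q * φ q| ≤ (lam + 1) * L * dist p p') ∧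
      ∀ a ∈ A, |(∑ q ∈ B, ν a q * φ q) - φ a| ≤ 2 * η * L := by
  classical
  set D := (∑ a ∈ A, dist a o) + 1 with hD
  have hD0 : 0 < D := by positivity
  set δ := min 1 (η / D) with hδ
  have hδ0 : 0 < δ := lt_min one_pos (div_pos hη hD0)
  obtain ⟨B₀, co, hco⟩ := exists_finite_operator P hnear T hT hδ0
  set B := insert o B₀ with hB
  set c : M → M → ℝ := fun p q => if q ∈ B₀ then co (P p) q else 0 with hc
  refine ⟨B, fun p q => c p q + if q = o then 1 - ∑ r ∈ B, c p r else 0, fun φ L hL hφ => ?_⟩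
  have hf : LipschitzWith 1 (fun x => (φ x - φ o) / L) :=
    LipschitzWith.of_dist_le_mul fun x y => by
      rw [Real.dist_eq, NNReal.coe_one, one_mul, ← sub_div, abs_div, abs_of_pos hL,
        div_le_iff₀ hL, sub_sub_sub_cancel_right, mul_comm]
      exact hφ x y
  set f : LipBall o := ⟨fun x => (φ x - φ o) / L, hf, by simp⟩ with hfdef
  set v : M → X := fun p => ∑ q ∈ B₀, co (P p) q • P q with hv
  set ev := E f with hev
  have hpt : ∀ x, ev (P x) = (φ x - φ o) / L := fun x => hEP f x
  have hval : ∀ p, (∑ q ∈ B, (c p q + if q = o then 1 - ∑ r ∈ B, c p r else 0) * φ q) =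
      φ o + L * ev (v p) := by
    intro p
    have h1 : ev (v p) = ∑ q ∈ B₀, co (P p) q * ((φ q - φ o) / L) := by
      simp only [hv, map_sum, map_smul, smul_eq_mul, hpt]
    have h2 : ∑ q ∈ B, c p q * (φ q - φ o) = ∑ q ∈ B₀, co (P p) q * (φ q - φ o) := by
      rw [hB]
      refine (Finset.sum_subset (Finset.subset_insert o B₀)
        fun x _ hx => by simp [hc, hx]).symm.trans
        (Finset.sum_congr rfl fun x hx => by simp [hc, hx])
    rw [h1, Finset.mul_sum]
    have h3 : ∀ q ∈ B₀, L * (co (P p) q * ((φ q - φ o) / L)) =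
        co (P p) q * (φ q - φ o) := fun q _ => by field_simp
    rw [Finset.sum_congr rfl h3, ← h2]
    simp only [add_mul, ite_mul, zero_mul, Finset.sum_add_distrib, mul_sub, Finset.sum_sub_distrib,
      Finset.sum_ite_eq', show o ∈ B from Finset.mem_insert_self o B₀, if_true, sub_mul,
      ← Finset.sum_mul]
    ring
  refine ⟨fun p p' => ?_, fun a ha => ?_⟩
  · rw [hval, hval]
    have hlip : ‖v p - v p'‖ ≤ (lam + 1) * dist p p' := by
      have hlin : v p - v p' = ∑ q ∈ B₀, co (P p - P p') q • P q := by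
        simp only [hv, map_sub, Pi.sub_apply, sub_smul, Finset.sum_sub_distrib]
      have e := hco (P p - P p')
      rw [← hlin] at e
      have h1 : ‖T (P p - P p')‖ ≤ lam * ‖P p - P p'‖ :=
        (T.le_opNorm _).trans (mul_le_mul_of_nonneg_right hlam (norm_nonneg _))
      have h2 := norm_sub_norm_le (v p - v p') (T (P p - P p'))
      rw [norm_sub_rev (v p - v p') (T (P p - P p'))] at h2
      have h3 : δ * ‖P p - P p'‖ ≤ 1 * ‖P p - P p'‖ :=
        mul_le_mul_of_nonneg_right (min_le_left _ _) (norm_nonneg _)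
      have h4 := hdist p p'
      have hlam0 : 0 ≤ lam := (norm_nonneg _).trans hlam
      calc ‖v p - v p'‖ ≤ (lam + 1) * ‖P p - P p'‖ := by linarith
        _ ≤ _ := mul_le_mul_of_nonneg_left h4 (by linarith)
    have h := (hE f (v p - v p')).trans hlip
    rw [map_sub] at h
    rw [add_sub_add_left_eq_sub, ← mul_sub, abs_mul, abs_of_pos hL]
    calc L * _ ≤ L * ((lam + 1) * dist p p') := mul_le_mul_of_nonneg_left h hL.le
      _ = _ := by ring
  · rw [hval]
    have h1 : ‖v a - P a‖ ≤ 2 * η := by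
      have e := hco (P a)
      have : δ * ‖P a‖ ≤ η := by
        calc δ * ‖P a‖ ≤ (η / D) * D := by
              refine mul_le_mul (min_le_right _ _) ?_ (norm_nonneg _) (by positivity)
              refine (hnorm a).trans ?_
              have := Finset.single_le_sum (f := fun a => dist a o) (fun _ _ => dist_nonneg) ha
              linarith
          _ = η := by field_simp
      calc ‖v a - P a‖ = ‖(T (P a) - P a) - (T (P a) - v a)‖ := by congr 1; abel
        _ ≤ _ := (norm_sub_le _ _).trans (by linarith [hA a ha])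
    have h := (hE f (v a - P a)).trans h1
    rw [map_sub] at h
    have e : φ a = φ o + L * ev (P a) := by rw [hpt]; field_simp; ring
    rw [e, add_sub_add_left_eq_sub, ← mul_sub, abs_mul, abs_of_pos hL]
    calc L * _ ≤ L * (2 * η) := mul_le_mul_of_nonneg_left h hL.le
      _ = _ := by ring

/-- A finite-rank operator almost fixing the points of `A` gives, for each point, a finitely
supported signed measure on a common finite set, depending Lipschitz on the point. -/
theorem exists_measures (T : Free o →L[ℝ] Free o)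
    (hT : FiniteDimensional ℝ (LinearMap.range T.toLinearMap)) {lam : ℝ} (hlam : ‖T‖ ≤ lam)
    (A : Finset M) {η : ℝ} (hη : 0 < η) (hA : ∀ a ∈ A, ‖T (pt o a) - pt o a‖ ≤ η) :
    ∃ (B : Finset M) (ν : M → M → ℝ), ∀ (φ : M → ℝ) (L : ℝ), 0 < L →
      (∀ p q, |φ p - φ q| ≤ L * dist p q) →
      (∀ p p', |(∑ q ∈ B, ν p q * φ q) - ∑ q ∈ B, ν p' q * φ q| ≤ (lam + 1) * L * dist p p') ∧
      ∀ a ∈ A, |(∑ q ∈ B, ν a q * φ q) - φ a| ≤ 2 * η * L := by
  exact measures_of_eval o (pt o) (evalF o) (abs_evalF_le o) (evalF_pt o) (norm_delta_sub_le o)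
    (norm_pt_le o) (fun v δ hδ => exists_finsupp_near o v hδ) T hT hlam A hη hA

end Vale.Agent.P090
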