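import Mathlib

/-!
The spectral gap of the four affine maps of Gabber and Galil on pairs of residues, and the
resulting `ℓ¹` Poincaré inequality.
-/

open Finset
open scoped Real ComplexConjugate

namespace Vale.Agent.P090

/-- The four affine maps. -/
def gg {A : Type} [CommRing A] : Fin 4 → Equiv.Perm (A × A)
  | 0 => ⟨fun v => (v.1 + 2 * v.2, v.2), fun v => (v.1 - 2 * v.2, v.2),
      fun v => by simp, fun v => by simp⟩
  | 1 => ⟨fun v => (v.1 + 2 * v.2 + 1, v.2), fun v => (v.1 - 2 * v.2 - 1, v.2),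
      fun v => Prod.ext (by dsimp; ring) rfl, fun v => Prod.ext (by dsimp; ring) rfl⟩
  | 2 => ⟨fun v => (v.1, v.2 + 2 * v.1), fun v => (v.1, v.2 - 2 * v.1),
      fun v => by simp, fun v => by simp⟩
  | 3 => ⟨fun v => (v.1, v.2 + 2 * v.1 + 1), fun v => (v.1, v.2 - 2 * v.1 - 1),
      fun v => Prod.ext rfl (by dsimp; ring), fun v => Prod.ext rfl (by dsimp; ring)⟩

theorem gg_map {A B : Type} [CommRing A] [CommRing B] (f : A →+* B) (i : Fin 4) (v : A × A) :
    Prod.map f f (gg i v) = gg i (Prod.map f f v) := by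
  fin_cases i <;> simp [gg, map_add, map_mul, map_ofNat]

section spectral

set_option linter.unusedSectionVars false

variable {n : ℕ} [NeZero n]

/-- The size of the least residue. -/
def sz (x : ZMod n) : ℕ := x.valMinAbs.natAbs

theorem two_sz_le (x : ZMod n) : 2 * sz x ≤ n := by
  have := x.natAbs_valMinAbs_le
  unfold sz; omega

theorem le_sz {x : ZMod n} {t : ℤ} (hx : x = (t : ZMod n)) {c : ℕ} (h1 : c < t.natAbs)
    (h2 : t.natAbs + c < n) : c < sz x := by
  by_contra h
  push Not at h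
  have hd : (n : ℤ) ∣ x.valMinAbs - t := by
    rw [← ZMod.intCast_eq_intCast_iff_dvd_sub, ZMod.coe_valMinAbs, hx]
  have hb : x.valMinAbs.natAbs ≤ c := h
  have hne : x.valMinAbs - t ≠ 0 := by omega
  have := Int.natAbs_le_of_dvd_ne_zero hd hne
  omega

/-- The weight used in the arithmetic-geometric mean inequality. -/
noncomputable def gamma (z z' : ZMod n × ZMod n) : ℝ :=
  if sz z'.1 ≤ sz z.1 ∧ sz z'.2 ≤ sz z.2 ∧ (sz z'.1 < sz z.1 ∨ sz z'.2 < sz z.2) then 5 / 4
  else if sz z.1 ≤ sz z'.1 ∧ sz z.2 ≤ sz z'.2 ∧ (sz z.1 < sz z'.1 ∨ sz z.2 < sz z'.2) then 4 / 5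
  else 1

theorem gamma_pos (z z' : ZMod n × ZMod n) : 0 < gamma z z' := by
  unfold gamma; split_ifs <;> norm_num

theorem gamma_mul (z z' : ZMod n × ZMod n) : gamma z z' * gamma z' z = 1 := by
  unfold gamma
  split_ifs <;> first | (norm_num; done) | (exfalso; omega)

theorem gamma_le (z z' : ZMod n × ZMod n) : gamma z z' ≤ 5 / 4 := by
  unfold gamma; split_ifs <;> norm_num

/-- The two moves fixing the first coordinate, and the two fixing the second. -/
noncomputable def pairSum (b : Bool) (z : ZMod n × ZMod n) : ℝ :=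
  if b then gamma z (z.1, z.2 + 2 * z.1) + gamma z (z.1, z.2 - 2 * z.1)
  else gamma z (z.1 + 2 * z.2, z.2) + gamma z (z.1 - 2 * z.2, z.2)

theorem gamma_self (z : ZMod n × ZMod n) : gamma z z = 1 := by
  simp [gamma]

/-- Inside the diamond the four weights sum to at most `73/20`. -/
theorem diamond (z : ZMod n × ZMod n) (hz : z ≠ 0) (hd : 2 * (sz z.1 + sz z.2) < n) :
    pairSum true z + pairSum false z ≤ 73 / 20 := by
  -- `s` is the fixed and `t` the moving coordinate
  have key : ∀ (s t : ZMod n) (W : ZMod n → ℝ), 2 * (sz s + sz t) < n →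
      (∀ u, W u ≤ 5 / 4) → (∀ u, sz t < sz u → W u ≤ 4 / 5) → (∀ u, sz t ≤ sz u → W u ≤ 1) →
      (sz t < sz s → W (t + 2 * s) + W (t - 2 * s) ≤ 8 / 5) ∧
      (sz t = sz s → 0 < sz s → W (t + 2 * s) + W (t - 2 * s) ≤ 9 / 5) ∧
      (0 < sz s → W (t + 2 * s) + W (t - 2 * s) ≤ 41 / 20) ∧
      (sz s = 0 → W (t + 2 * s) + W (t - 2 * s) ≤ 2) := by
    intro s t W hst hW hW1 hW2
    have es : ((s.valMinAbs : ℤ) : ZMod n) = s := ZMod.coe_valMinAbs s
    have et : ((t.valMinAbs : ℤ) : ZMod n) = t := ZMod.coe_valMinAbs t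
    have ep : t + 2 * s = ((t.valMinAbs + 2 * s.valMinAbs : ℤ) : ZMod n) := by
      simp
    have em : t - 2 * s = ((t.valMinAbs - 2 * s.valMinAbs : ℤ) : ZMod n) := by
      simp
    unfold sz at hst
    refine ⟨fun h => ?_, fun h h0 => ?_, fun h0 => ?_, fun h0 => ?_⟩
    · unfold sz at h
      have a1 : sz t < sz (t + 2 * s) := le_sz ep (by unfold sz; omega) (by unfold sz; omega)
      have a2 : sz t < sz (t - 2 * s) := le_sz em (by unfold sz; omega) (by unfold sz; omega)
      linarith [hW1 _ a1, hW1 _ a2]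
    · unfold sz at h h0
      rcases Int.natAbs_eq_natAbs_iff.mp h with e | e
      · have a1 : sz t < sz (t + 2 * s) := le_sz ep (by unfold sz; omega) (by unfold sz; omega)
        have e' : t = s := by rw [← es, ← et, e]
        have a2 : sz t ≤ sz (t - 2 * s) := by
          rw [show t - 2 * s = -t by rw [e']; ring]
          exact le_of_eq (ZMod.natAbs_valMinAbs_neg t).symm
        linarith [hW1 _ a1, hW2 _ a2]
      · have a1 : sz t < sz (t - 2 * s) := le_sz em (by unfold sz; omega) (by unfold sz; omega)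
        have e' : t = -s := by rw [← es, ← et, e]; push_cast; rfl
        have a2 : sz t ≤ sz (t + 2 * s) := by
          rw [show t + 2 * s = -t by rw [e']; ring]
          exact le_of_eq (ZMod.natAbs_valMinAbs_neg t).symm
        linarith [hW1 _ a1, hW2 _ a2]
    · unfold sz at h0
      by_cases hsign : t.valMinAbs.natAbs < (t.valMinAbs + 2 * s.valMinAbs).natAbs
      · have a1 : sz t < sz (t + 2 * s) := le_sz ep (by unfold sz; omega) (by unfold sz; omega)
        linarith [hW1 _ a1, hW (t - 2 * s)]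
      · have a1 : sz t < sz (t - 2 * s) := le_sz em (by unfold sz; omega) (by unfold sz; omega)
        linarith [hW1 _ a1, hW (t + 2 * s)]
    · have e : s = 0 := (ZMod.valMinAbs_eq_zero s).mp (Int.natAbs_eq_zero.mp h0)
      rw [e]
      simp only [mul_zero, add_zero, sub_zero]
      linarith [hW2 t le_rfl]
  obtain ⟨x, y⟩ := z
  dsimp only at hd
  have h1 := key x y (fun u => gamma (x, y) (x, u)) hd (fun u => gamma_le _ _)
    (fun u hu => by
      unfold gamma; dsimp only
      split_ifs <;> first | (norm_num; done) | (exfalso; omega))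
    (fun u hu => by
      unfold gamma; dsimp only
      split_ifs <;> first | (norm_num; done) | (exfalso; omega))
  have h2 := key y x (fun u => gamma (x, y) (u, y)) (by omega) (fun u => gamma_le _ _)
    (fun u hu => by
      unfold gamma; dsimp only
      split_ifs <;> first | (norm_num; done) | (exfalso; omega))
    (fun u hu => by
      unfold gamma; dsimp only
      split_ifs <;> first | (norm_num; done) | (exfalso; omega))
  simp only [pairSum, if_true, Bool.false_eq_true, if_false]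
  have hxy : ¬(sz x = 0 ∧ sz y = 0) := by
    rintro ⟨hx, hy⟩
    exact hz (Prod.ext ((ZMod.valMinAbs_eq_zero x).mp (Int.natAbs_eq_zero.mp hx))
      ((ZMod.valMinAbs_eq_zero y).mp (Int.natAbs_eq_zero.mp hy)))
  rcases lt_trichotomy (sz x) (sz y) with h | h | h
  · rcases Nat.eq_zero_or_pos (sz x) with h0 | h0
    · linarith [h1.2.2.2 h0, h2.1 h]
    · linarith [h1.2.2.1 h0, h2.1 h]
  · linarith [h1.2.1 h.symm (by omega), h2.2.1 h (by omega)]
  · rcases Nat.eq_zero_or_pos (sz y) with h0 | h0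
    · linarith [h1.1 h, h2.2.2.2 h0]
    · linarith [h1.1 h, h2.2.2.1 h0]

/-- The cosine of half the angle of a residue. -/
noncomputable def cw (x : ZMod n) : ℝ := Real.cos (π * sz x / n)

theorem cw_nonneg (x : ZMod n) : 0 ≤ cw x := by
  have h : (2 * sz x : ℝ) ≤ n := by exact_mod_cast two_sz_le x
  have hn : (0 : ℝ) < n := by exact_mod_cast Nat.pos_of_ne_zero (NeZero.ne n)
  refine Real.cos_nonneg_of_neg_pi_div_two_le_of_le ?_ ?_
  · have : 0 ≤ π * sz x / n := by positivity
    linarith [Real.pi_pos]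
  · rw [div_le_iff₀ hn]; nlinarith [Real.pi_pos]

theorem weight_le (z : ZMod n × ZMod n) (hz : z ≠ 0) :
    cw z.1 * pairSum true z + cw z.2 * pairSum false z ≤ 37 / 10 := by
  have hp : ∀ b, pairSum b z ≤ 5 / 2 ∧ 0 ≤ pairSum b z := by
    intro b
    cases b <;> simp only [pairSum, if_true, Bool.false_eq_true, if_false] <;>
      exact ⟨by linarith [gamma_le z (z.1, z.2 + 2 * z.1), gamma_le z (z.1, z.2 - 2 * z.1),
        gamma_le z (z.1 + 2 * z.2, z.2), gamma_le z (z.1 - 2 * z.2, z.2)],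
        (add_pos (gamma_pos _ _) (gamma_pos _ _)).le⟩
  have hn : (0 : ℝ) < n := by exact_mod_cast Nat.pos_of_ne_zero (NeZero.ne n)
  have hc : ∀ x : ZMod n, cw x ≤ 1 := fun x => Real.cos_le_one _
  rcases lt_or_ge (2 * (sz z.1 + sz z.2)) n with hd | hd
  · have h := diamond z hz hd
    have h1 : cw z.1 * pairSum true z ≤ pairSum true z :=
      mul_le_of_le_one_left (hp true).2 (hc z.1)
    have h2 : cw z.2 * pairSum false z ≤ pairSum false z :=
      mul_le_of_le_one_left (hp false).2 (hc z.2)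
    linarith
  · set A := π * sz z.1 / n with hA
    set B := π * sz z.2 / n with hB
    have hA0 : 0 ≤ A := by positivity
    have hB0 : 0 ≤ B := by positivity
    have hup : ∀ x : ZMod n, π * sz x / n ≤ π / 2 := fun x => by
      have h : (2 * sz x : ℝ) ≤ n := by exact_mod_cast two_sz_le x
      rw [div_le_iff₀ hn]
      nlinarith [Real.pi_pos]
    have hA1 := hup z.1
    have hB1 := hup z.2
    rw [← hA] at hA1
    rw [← hB] at hB1
    have hAB : π / 2 ≤ A + B := by
      rw [hA, hB, ← add_div, le_div_iff₀ hn]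
      have : (n : ℝ) ≤ 2 * ((sz z.1 : ℝ) + sz z.2) := by exact_mod_cast hd
      nlinarith [Real.pi_pos]
    have h1 : Real.cos ((A + B) / 2) ≤ Real.sqrt 2 / 2 := by
      rw [← Real.cos_pi_div_four]
      exact Real.cos_le_cos_of_nonneg_of_le_pi (by linarith [Real.pi_pos])
        (by linarith [Real.pi_pos]) (by linarith)
    have h2 : 0 ≤ Real.cos ((A + B) / 2) :=
      Real.cos_nonneg_of_neg_pi_div_two_le_of_le (by linarith) (by linarith)
    have hsum : cw z.1 + cw z.2 ≤ Real.sqrt 2 := by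
      rw [cw, cw, ← hA, ← hB, Real.cos_add_cos]
      have := Real.cos_le_one ((A - B) / 2)
      nlinarith [mul_le_mul_of_nonneg_left this h2]
    have hsq : Real.sqrt 2 ≤ 1.42 := by
      rw [Real.sqrt_le_left (by norm_num)]; norm_num
    have h3 := mul_le_mul_of_nonneg_left (hp true).1 (cw_nonneg z.1)
    have h4 := mul_le_mul_of_nonneg_left (hp false).1 (cw_nonneg z.2)
    linarith

/-- The discrete Fourier transform. -/
noncomputable def ft (f : ZMod n × ZMod n → ℝ) (ξ : ZMod n × ZMod n) : ℂ :=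
  ∑ z, (f z : ℂ) * ZMod.stdAddChar (ξ.1 * z.1 + ξ.2 * z.2)

theorem sum_char (a : ZMod n × ZMod n) :
    ∑ ξ : ZMod n × ZMod n, ZMod.stdAddChar (ξ.1 * a.1 + ξ.2 * a.2) =
      if a = 0 then ((n : ℂ) ^ 2) else 0 := by
  rw [Fintype.sum_prod_type]
  simp only [AddChar.map_add_eq_mul, ← mul_sum, ← sum_mul,
    AddChar.sum_mulShift _ (ZMod.isPrimitive_stdAddChar n), ZMod.card]
  obtain ⟨a, b⟩ := a
  by_cases ha : a = 0 <;> by_cases hb : b = 0 <;> simp [ha, hb, sq]

theorem norm_one_add_char (t : ZMod n) : ‖1 + ZMod.stdAddChar t‖ = 2 * cw t := by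
  have e : ZMod.stdAddChar t = Complex.exp ((2 * π * t.valMinAbs / n : ℝ) * Complex.I) := by
    conv_lhs => rw [← ZMod.coe_valMinAbs t]
    rw [ZMod.stdAddChar_coe]
    push_cast
    ring_nf
  set θ : ℝ := π * t.valMinAbs / n with hθ
  have hc : cw t = Real.cos θ := by
    have : π * (sz t : ℝ) / n = |θ| := by
      rw [hθ, abs_div, abs_mul, abs_of_pos Real.pi_pos, abs_of_nonneg (Nat.cast_nonneg n (α := ℝ)),
        sz, Nat.cast_natAbs, Int.cast_abs]
    rw [cw, this, Real.cos_abs]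
  have h2 : ‖1 + ZMod.stdAddChar t‖ ^ 2 = (2 * cw t) ^ 2 := by
    rw [e, show (2 * π * t.valMinAbs / n : ℝ) = 2 * θ by rw [hθ]; ring, Complex.sq_norm,
      Complex.normSq_apply, hc]
    simp only [Complex.add_re, Complex.one_re, Complex.add_im, Complex.one_im,
      Complex.exp_ofReal_mul_I_re, Complex.exp_ofReal_mul_I_im, Real.cos_two_mul, Real.sin_two_mul]
    linear_combination (4 * Real.cos θ ^ 2) * Real.sin_sq_add_cos_sq θ
  exact (pow_left_inj₀ (norm_nonneg _) (mul_nonneg zero_le_two (cw_nonneg t)) two_ne_zero).mp h2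

theorem conj_ft (f : ZMod n × ZMod n → ℝ) (ξ : ZMod n × ZMod n) :
    conj (ft f ξ) = ft f (-ξ) := by
  simp only [ft, map_sum, map_mul, Complex.conj_ofReal, ← AddChar.map_neg_eq_conj, Prod.fst_neg,
    Prod.snd_neg, neg_mul, neg_add_rev]
  exact sum_congr rfl fun z _ => by ring_nf

/-- The Fourier expression of a correlation along an affine map. -/
theorem corr_eq (f : ZMod n × ZMod n → ℝ) (M N : ZMod n × ZMod n → ZMod n × ZMod n)
    (b : ZMod n × ZMod n)
    (hadj : ∀ ξ z, (N ξ).1 * z.1 + (N ξ).2 * z.2 = ξ.1 * (M z).1 + ξ.2 * (M z).2) :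
    ∑ ξ, conj (ft f ξ) * ZMod.stdAddChar (ξ.1 * b.1 + ξ.2 * b.2) * ft f (N ξ) =
      (((n : ℝ) ^ 2 * ∑ z, f z * f (M z + b) : ℝ) : ℂ) := by
  have h : ∀ ξ, conj (ft f ξ) * ZMod.stdAddChar (ξ.1 * b.1 + ξ.2 * b.2) * ft f (N ξ) =
      ∑ y, ∑ z, ((f y : ℂ) * f z) *
        ZMod.stdAddChar (ξ.1 * (M z + b - y).1 + ξ.2 * (M z + b - y).2) := by
    intro ξ
    rw [conj_ft, ft, ft, sum_mul, sum_mul]
    refine sum_congr rfl fun y _ => ?_
    rw [mul_sum]
    refine sum_congr rfl fun z _ => ?_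
    have e : ξ.1 * (M z + b - y).1 + ξ.2 * (M z + b - y).2 =
        ((-ξ).1 * y.1 + (-ξ).2 * y.2) + (ξ.1 * b.1 + ξ.2 * b.2) +
          ((N ξ).1 * z.1 + (N ξ).2 * z.2) := by
      rw [hadj]; simp only [Prod.fst_add, Prod.snd_add, Prod.fst_sub, Prod.snd_sub,
        Prod.fst_neg, Prod.snd_neg]; ring
    rw [e]
    simp only [AddChar.map_add_eq_mul]
    ring
  simp only [h]
  rw [sum_comm]
  have inner : ∀ y, (∑ ξ : ZMod n × ZMod n, ∑ z, ((f y : ℂ) * f z) *
      ZMod.stdAddChar (ξ.1 * (M z + b - y).1 + ξ.2 * (M z + b - y).2)) =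
      ∑ z, if M z + b = y then ((f y : ℂ) * f z) * (n : ℂ) ^ 2 else 0 := fun y => by
    rw [sum_comm]
    refine sum_congr rfl fun z _ => ?_
    rw [← mul_sum, sum_char, mul_ite, mul_zero]
    exact if_congr sub_eq_zero rfl rfl
  rw [sum_congr rfl fun y _ => inner y, sum_comm]
  simp only [sum_ite_eq, mem_univ, if_true]
  push_cast
  rw [mul_sum]
  exact sum_congr rfl fun z _ => by ring

theorem parseval (f : ZMod n × ZMod n → ℝ) :
    ∑ ξ, ‖ft f ξ‖ ^ 2 = (n : ℝ) ^ 2 * ∑ z, f z ^ 2 := by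
  have h := corr_eq f id id 0 (fun _ _ => rfl)
  simp only [id_eq, Prod.fst_zero, Prod.snd_zero, mul_zero, add_zero, AddChar.map_zero_eq_one,
    mul_one, Complex.conj_mul', ← sq] at h
  exact_mod_cast h

/-- The two linear parts, transposed. -/
def transA (s : Bool) : Equiv.Perm (ZMod n × ZMod n) :=
  if s then
    ⟨fun v => (v.1, v.2 + 2 * v.1), fun v => (v.1, v.2 - 2 * v.1), fun v => by simp,
      fun v => by simp⟩
  else
    ⟨fun v => (v.1 + 2 * v.2, v.2), fun v => (v.1 - 2 * v.2, v.2), fun v => by simp,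
      fun v => by simp⟩

/-- One weighted inequality between arithmetic and geometric means. -/
theorem amgm (G : ZMod n × ZMod n → ℝ) (c : ZMod n × ZMod n → ℝ) (hc : ∀ ξ, 0 ≤ c ξ)
    (σ : Equiv.Perm (ZMod n × ZMod n)) (hinv : ∀ ξ, c (σ ξ) = c ξ) :
    2 * ∑ ξ, c ξ * (G ξ * G (σ ξ)) ≤
      ∑ ξ, c ξ * (gamma ξ (σ ξ) + gamma ξ (σ.symm ξ)) * G ξ ^ 2 := by
  have h : ∀ ξ, 2 * (c ξ * (G ξ * G (σ ξ))) ≤
      c ξ * gamma ξ (σ ξ) * G ξ ^ 2 + c ξ * gamma (σ ξ) ξ * G (σ ξ) ^ 2 := by
    intro ξ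
    have hg := gamma_pos ξ (σ ξ)
    have e : gamma (σ ξ) ξ = 1 / gamma ξ (σ ξ) := by
      rw [eq_div_iff hg.ne', mul_comm]; exact gamma_mul _ _
    rw [e]
    have k : c ξ * gamma ξ (σ ξ) * G ξ ^ 2 + c ξ * (1 / gamma ξ (σ ξ)) * G (σ ξ) ^ 2 -
        2 * (c ξ * (G ξ * G (σ ξ))) =
        c ξ / gamma ξ (σ ξ) * (gamma ξ (σ ξ) * G ξ - G (σ ξ)) ^ 2 := by
      field_simp; ring
    have : 0 ≤ c ξ / gamma ξ (σ ξ) * (gamma ξ (σ ξ) * G ξ - G (σ ξ)) ^ 2 :=
      mul_nonneg (div_nonneg (hc ξ) hg.le) (sq_nonneg _)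
    linarith
  rw [mul_sum]
  refine (sum_le_sum fun ξ _ => h ξ).trans (le_of_eq ?_)
  rw [sum_add_distrib]
  have e : ∑ ξ, c ξ * gamma (σ ξ) ξ * G (σ ξ) ^ 2 = ∑ ξ, c ξ * gamma ξ (σ.symm ξ) * G ξ ^ 2 := by
    rw [← Equiv.sum_comp σ fun ξ => c ξ * gamma ξ (σ.symm ξ) * G ξ ^ 2]
    simp only [hinv, Equiv.symm_apply_apply]
  rw [e, ← sum_add_distrib]
  exact sum_congr rfl fun ξ _ => by ring

/-- The spectral gap. -/
theorem gg_spectral (f : ZMod n × ZMod n → ℝ) (hf : ∑ z, f z = 0) :
    ∑ i, ∑ z, f z * f (gg i z) ≤ 37 / 10 * ∑ z, f z ^ 2 := by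
  set G : ZMod n × ZMod n → ℝ := fun ξ => ‖ft f ξ‖ with hG
  have hG0 : G 0 = 0 := by
    have : ft f 0 = 0 := by simp [ft, ← Complex.ofReal_sum, hf]
    simp [hG, this]
  -- the two maps with the same linear part
  have hpair : ∀ (s : Bool) (M : ZMod n × ZMod n → ZMod n × ZMod n) (b : ZMod n × ZMod n)
      (_ : ∀ ξ z, (transA s ξ).1 * z.1 + (transA s ξ).2 * z.2 = ξ.1 * (M z).1 + ξ.2 * (M z).2)
      (_ : ∀ ξ : ZMod n × ZMod n, ξ.1 * b.1 + ξ.2 * b.2 = if s then ξ.1 else ξ.2),
      (n : ℝ) ^ 2 * ((∑ z, f z * f (M z)) + ∑ z, f z * f (M z + b)) ≤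
        2 * ∑ ξ, (if s then cw ξ.1 else cw ξ.2) * (G ξ * G (transA s ξ)) := by
    intro s M b hadj hb
    have h0 := corr_eq f M (transA s) 0 hadj
    have h1 := corr_eq f M (transA s) b hadj
    simp only [Prod.fst_zero, Prod.snd_zero, mul_zero, add_zero, AddChar.map_zero_eq_one,
      mul_one] at h0
    simp only [hb] at h1
    have hre : (n : ℝ) ^ 2 * ((∑ z, f z * f (M z)) + ∑ z, f z * f (M z + b)) =
        (∑ ξ, conj (ft f ξ) * (1 + ZMod.stdAddChar (if s then ξ.1 else ξ.2)) *
          ft f (transA s ξ)).re := by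
      simp only [mul_add, add_mul, mul_one, sum_add_distrib, h0, h1, Complex.add_re,
        Complex.ofReal_re]
    rw [hre, mul_sum]
    refine (Complex.re_le_norm _).trans ((norm_sum_le _ _).trans (le_of_eq ?_))
    refine sum_congr rfl fun ξ _ => ?_
    rw [norm_mul, norm_mul, Complex.norm_conj, norm_one_add_char, hG]
    cases s <;> simp <;> ring
  have hT := hpair true (fun v => (v.1 + 2 * v.2, v.2)) (1, 0)
    (fun ξ z => by simp [transA]; ring) (fun ξ => by simp)
  have hF := hpair false (fun v => (v.1, v.2 + 2 * v.1)) (0, 1)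
    (fun ξ z => by simp [transA]; ring) (fun ξ => by simp)
  simp only [if_true, Bool.false_eq_true, if_false, Prod.mk_add_mk, add_zero] at hT hF
  have aT := amgm G (fun ξ => cw ξ.1) (fun ξ => cw_nonneg _) (transA true) (fun ξ => by simp [transA])
  have aF := amgm G (fun ξ => cw ξ.2) (fun ξ => cw_nonneg _) (transA false)
    (fun ξ => by simp [transA])
  have hw : ∑ ξ, cw ξ.1 * (gamma ξ (transA true ξ) + gamma ξ ((transA true).symm ξ)) * G ξ ^ 2 +
      ∑ ξ, cw ξ.2 * (gamma ξ (transA false ξ) + gamma ξ ((transA false).symm ξ)) * G ξ ^ 2 ≤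
      37 / 10 * ((n : ℝ) ^ 2 * ∑ z, f z ^ 2) := by
    rw [← parseval, mul_sum, ← sum_add_distrib]
    refine sum_le_sum fun ξ _ => ?_
    rcases eq_or_ne ξ 0 with rfl | hξ
    · simp [hG0, show ‖ft f 0‖ = 0 from hG0]
    · rw [← add_mul]
      exact mul_le_mul_of_nonneg_right (weight_le ξ hξ) (sq_nonneg _)
  have hn : (0 : ℝ) < (n : ℝ) ^ 2 := by
    have := Nat.pos_of_ne_zero (NeZero.ne n); positivity
  refine le_of_mul_le_mul_left ?_ hn
  simp only [Fin.sum_univ_four, gg, Equiv.coe_fn_mk]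
  linarith

/-- The variation of a function along the four maps. -/
noncomputable def variation (u : ZMod n × ZMod n → ℝ) : ℝ :=
  ∑ i, ∑ z, |u (gg i z) - u z|

theorem sq_sqrt_sub_le {a b : ℝ} (ha : 0 ≤ a) (hb : 0 ≤ b) :
    (Real.sqrt a - Real.sqrt b) ^ 2 ≤ |a - b| := by
  have h1 := Real.sqrt_nonneg a
  have h2 := Real.sqrt_nonneg b
  have e : a - b = (Real.sqrt a - Real.sqrt b) * (Real.sqrt a + Real.sqrt b) := by
    nlinarith [Real.sq_sqrt ha, Real.sq_sqrt hb]
  rw [e, abs_mul, abs_of_nonneg (add_nonneg h1 h2), ← sq_abs]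
  rw [sq]
  exact mul_le_mul_of_nonneg_left (abs_sub_le_iff.mpr ⟨by linarith, by linarith⟩) (abs_nonneg _)

/-- Nonnegative functions with small support. -/
theorem small_support (u : ZMod n × ZMod n → ℝ) (hu : ∀ z, 0 ≤ u z)
    (hsupp : 2 * (univ.filter fun z => u z ≠ 0).card ≤ Fintype.card (ZMod n × ZMod n)) :
    ∑ z, u z ≤ 10 / 3 * variation u := by
  set W : ℝ := (Fintype.card (ZMod n × ZMod n) : ℝ) with hW
  have hW0 : 0 < W := by rw [hW]; exact_mod_cast Fintype.card_pos
  set q : ZMod n × ZMod n → ℝ := fun z => Real.sqrt (u z) with hq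
  set S := ∑ z, q z with hS
  set f : ZMod n × ZMod n → ℝ := fun z => q z - S / W with hf
  have hmean : ∑ z, f z = 0 := by
    simp only [hf, sum_sub_distrib, sum_const, card_univ, nsmul_eq_mul, ← hW, ← hS]
    field_simp; ring
  have hgap := gg_spectral f hmean
  have hf2 : ∑ z, f z ^ 2 = ∑ z, u z - S ^ 2 / W := by
    have : ∀ z, f z ^ 2 = u z - 2 * (S / W) * q z + (S / W) ^ 2 := fun z => by
      simp only [hf, sub_sq, hq, Real.sq_sqrt (hu z)]; ring
    simp only [this, sum_add_distrib, sum_sub_distrib, ← mul_sum, sum_const, card_univ,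
      nsmul_eq_mul, ← hW, ← hS]
    field_simp; ring
  have hcs : S ^ 2 ≤ W / 2 * ∑ z, u z := by
    have e : S = ∑ z ∈ univ.filter (fun z => u z ≠ 0), q z := by
      rw [hS, sum_filter]
      refine sum_congr rfl fun z _ => ?_
      by_cases h : u z = 0 <;> simp [h, hq]
    rw [e]
    refine sq_sum_le_card_mul_sum_sq.trans (mul_le_mul ?_ ?_ (sum_nonneg fun z _ => sq_nonneg _)
      (by positivity))
    · rw [le_div_iff₀ two_pos, hW, mul_comm]
      exact_mod_cast hsupp
    · refine le_trans (le_of_eq (sum_congr rfl fun z _ => Real.sq_sqrt (hu z))) ?_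
      exact sum_le_sum_of_subset_of_nonneg (subset_univ _) fun z _ _ => hu z
  have hvar : ∑ i, ∑ z, (f (gg i z) - f z) ^ 2 ≤ variation u := by
    refine sum_le_sum fun i _ => sum_le_sum fun z _ => ?_
    simp only [hf, sub_sub_sub_cancel_right, hq]
    exact sq_sqrt_sub_le (hu _) (hu _)
  have hexp : ∑ i, ∑ z, (f (gg i z) - f z) ^ 2 =
      8 * ∑ z, f z ^ 2 - 2 * ∑ i, ∑ z, f z * f (gg i z) := by
    have : ∀ i : Fin 4, ∑ z, (f (gg i z) - f z) ^ 2 =
        2 * ∑ z, f z ^ 2 - 2 * ∑ z, f z * f (gg i z) := fun i => by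
      have e := Equiv.sum_comp (gg i) fun z => f z ^ 2
      simp only [sub_sq, sum_add_distrib, sum_sub_distrib, e, mul_assoc, ← mul_sum,
        mul_comm (f (gg i _)) (f _)]
      ring
    simp only [this, sum_sub_distrib, sum_const, card_univ, Fintype.card_fin, nsmul_eq_mul,
      ← mul_sum]
    push_cast; ring
  have : S ^ 2 / W ≤ (∑ z, u z) / 2 := by rw [div_le_iff₀ hW0]; linarith
  linarith

/-- The Poincaré inequality in `ℓ¹`. -/
theorem gg_l1 (h : ZMod n × ZMod n → ℝ) :
    ∑ z, |h z - (∑ y, h y) / Fintype.card (ZMod n × ZMod n)| ≤ 7 * variation h := by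
  set C := Fintype.card (ZMod n × ZMod n) with hC
  -- a median
  set S := (univ.image h).filter fun t => 2 * (univ.filter fun z => t < h z).card ≤ C with hS
  have hSne : S.Nonempty := by
    refine ⟨(univ.image h).max' (univ_nonempty.image h), mem_filter.mpr ⟨max'_mem _ _, ?_⟩⟩
    rw [filter_eq_empty_iff.mpr fun z _ => not_lt.mpr
      (le_max' _ _ (mem_image_of_mem h (mem_univ z)))]
    simp
  set m := S.min' hSne with hm
  have hm1 : 2 * (univ.filter fun z => m < h z).card ≤ C :=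
    (mem_filter.mp (S.min'_mem hSne)).2
  have hm2 : 2 * (univ.filter fun z => h z < m).card ≤ C := by
    rcases (univ.filter fun z => h z < m).eq_empty_or_nonempty with he | hne
    · simp [he]
    · set t := ((univ.filter fun z => h z < m).image h).max' (hne.image h) with ht
      obtain ⟨z₀, hz₀, hz₀t⟩ := mem_image.mp (max'_mem _ (hne.image h))
      have htm : t < m := by rw [ht, ← hz₀t]; exact (mem_filter.mp hz₀).2
      have hnot : C < 2 * (univ.filter fun z => t < h z).card := by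
        by_contra hle
        push Not at hle
        have : t ∈ S := mem_filter.mpr ⟨mem_image.mpr ⟨z₀, mem_univ _, hz₀t⟩, hle⟩
        exact absurd (S.min'_le t this) (not_le.mpr htm)
      have hsub : (univ.filter fun z => h z < m) ⊆ univ.filter fun z => ¬ t < h z := fun z hz =>
        mem_filter.mpr ⟨mem_univ _, not_lt.mpr (le_max' _ _ (mem_image_of_mem h hz))⟩
      have := card_le_card hsub
      have h' := card_filter_add_card_filter_not (s := univ) fun z => t < h z
      rw [card_univ, ← hC] at h'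
      omega
  have hp := small_support (fun z => max (h z - m) 0) (fun z => le_max_right _ _) (by
    refine le_trans (Nat.mul_le_mul_left 2 (card_le_card fun z hz => ?_)) hm1
    simp only [mem_filter, mem_univ, true_and, ne_eq, max_eq_right_iff, sub_nonpos, not_le] at hz ⊢
    exact hz)
  have hq := small_support (fun z => max (m - h z) 0) (fun z => le_max_right _ _) (by
    refine le_trans (Nat.mul_le_mul_left 2 (card_le_card fun z hz => ?_)) hm2
    simp only [mem_filter, mem_univ, true_and, ne_eq, max_eq_right_iff, sub_nonpos, not_le] at hz ⊢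
    exact hz)
  have hsplit : variation (fun z => max (h z - m) 0) + variation (fun z => max (m - h z) 0) =
      variation h := by
    simp only [variation, ← sum_add_distrib]
    refine sum_congr rfl fun i _ => sum_congr rfl fun z _ => ?_
    rcases le_total (h (gg i z)) m with a | a <;> rcases le_total (h z) m with b | b <;>
      rcases le_total (h (gg i z)) (h z) with c | c <;>
      simp [a, b, c, abs_of_nonneg, abs_of_nonpos] <;> linarith
  have hmed : ∑ z, |h z - m| ≤ 10 / 3 * variation h := by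
    have e : ∀ z, |h z - m| = max (h z - m) 0 + max (m - h z) 0 := fun z => by
      rcases le_total (h z) m with b | b <;> simp [b, abs_of_nonneg, abs_of_nonpos]
    simp only [e, sum_add_distrib]
    linarith
  have hC0 : (0 : ℝ) < C := by rw [hC]; exact_mod_cast Fintype.card_pos
  set μ := (∑ y, h y) / (C : ℝ) with hμ
  have hdist : (C : ℝ) * |m - μ| ≤ ∑ z, |h z - m| := by
    have e : (C : ℝ) * (m - μ) = ∑ z, (m - h z) := by
      rw [sum_sub_distrib, sum_const, card_univ, nsmul_eq_mul, ← hC, hμ]; field_simp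
    rw [← abs_of_pos hC0, ← abs_mul, e]
    refine (abs_sum_le_sum_abs _ _).trans (le_of_eq (sum_congr rfl fun z _ => abs_sub_comm _ _))
  calc ∑ z, |h z - μ| ≤ ∑ z, (|h z - m| + |m - μ|) := sum_le_sum fun z _ => abs_sub_le _ _ _
    _ = ∑ z, |h z - m| + C * |m - μ| := by
        rw [sum_add_distrib, sum_const, card_univ, nsmul_eq_mul, ← hC]
    _ ≤ 7 * variation h := by
        have : 0 ≤ variation h := sum_nonneg fun i _ => sum_nonneg fun z _ => abs_nonneg _
        linarith

end spectral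

/-- The Poincaré inequality for the diagonal action on two coprime levels. -/
theorem gg_l1_pair {N M : ℕ} [NeZero N] [NeZero M] (hNM : Nat.Coprime N M)
    (K : (ZMod N × ZMod N) × (ZMod M × ZMod M) → ℝ) :
    ∑ p, |K p - (∑ q, K q) / Fintype.card ((ZMod N × ZMod N) × (ZMod M × ZMod M))| ≤
      7 * ∑ i, ∑ p : (ZMod N × ZMod N) × (ZMod M × ZMod M), |K (gg i p.1, gg i p.2) - K p| := by
  have : NeZero (N * M) := ⟨Nat.mul_ne_zero (NeZero.ne N) (NeZero.ne M)⟩
  let r := ZMod.chineseRemainder hNM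
  let φ : ZMod (N * M) →+* ZMod N := (RingHom.fst _ _).comp r.toRingHom
  let ψ : ZMod (N * M) →+* ZMod M := (RingHom.snd _ _).comp r.toRingHom
  let e : (ZMod (N * M) × ZMod (N * M)) ≃ (ZMod N × ZMod N) × (ZMod M × ZMod M) :=
    { toFun := fun v => (Prod.map φ φ v, Prod.map ψ ψ v)
      invFun := fun p => (r.symm (p.1.1, p.2.1), r.symm (p.1.2, p.2.2))
      left_inv := fun v => by simp [φ, ψ]
      right_inv := fun p => by simp [φ, ψ] }
  have he : ∀ i v, e (gg i v) = (gg i (e v).1, gg i (e v).2) := fun i v =>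
    Prod.ext (gg_map φ i v) (gg_map ψ i v)
  have h := gg_l1 fun v => K (e v)
  rw [Fintype.card_congr e] at h
  simp only [variation, he] at h
  simp only [Equiv.sum_comp e K, Equiv.sum_comp e
    (fun p => |K p - (∑ q, K q) / Fintype.card ((ZMod N × ZMod N) × (ZMod M × ZMod M))|)] at h
  refine h.trans (le_of_eq ?_)
  congr 1
  exact sum_congr rfl fun i _ => Equiv.sum_comp e fun p => |K (gg i p.1, gg i p.2) - K p|

end Vale.Agent.P090
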