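import Vale.Agent.P090.Space

/-!
Kernels along reduced paths, and their Lipschitz estimates.
-/

namespace Vale.Agent.P090

open Classical

variable {k : ℕ}

/-- Coefficients of a kernel at lifts. -/
abbrev Coef (k : ℕ) : Type := FreeGroup (Letter k) → (j : ℕ) → Fib k j → ℝ

/-- `z` is reached from `x` by a short word. -/
def Near (k : ℕ) (x z : Base k) : Prop :=
  ∃ g : FreeGroup (Letter k), FreeGroup.norm g ≤ 2 * rad k + 1 ∧ rho k g * x = z

theorem path_unique {x : Base k} {g g' : FreeGroup (Letter k)}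
    (hg : FreeGroup.norm g ≤ 2 * rad k + 2) (hg' : FreeGroup.norm g' ≤ 2 * rad k + 2)
    (h : rho k g * x = rho k g' * x) : g = g' := by
  have h1 : rho k (g⁻¹ * g') = 1 := by
    rw [MonoidHom.map_mul, MonoidHom.map_inv, mul_right_cancel h, inv_mul_cancel]
  have hn : FreeGroup.norm (g⁻¹ * g') ≤ 4 * rad k + 4 :=
    (FreeGroup.norm_mul_le _ _).trans (by rw [FreeGroup.norm_inv_eq]; omega)
  exact inv_mul_eq_one.mp (shortHom_injOn hn h1)

/-- The kernel of the coefficients `f` (at lifts) and `fA` (at anchors) based at `x`. -/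
noncomputable def kern (x : Base k) (f : Coef k) (fA : FreeGroup (Letter k) → ℝ) : Pt k → ℝ
  | Sum.inl ⟨j, z, v⟩ =>
    if h : Near k x z then f h.choose j ((fibHom k j h.choose)⁻¹ v) else 0
  | Sum.inr z => if h : Near k x z then fA h.choose else 0

theorem kern_lift {x : Base k} {f : Coef k} {fA : FreeGroup (Letter k) → ℝ}
    {g : FreeGroup (Letter k)} (hg : FreeGroup.norm g ≤ 2 * rad k + 1) {z : Base k}
    (hz : rho k g * x = z) (j : ℕ) (v : Fib k j) :
    kern x f fA (Sum.inl ⟨j, z, v⟩) = f g j ((fibHom k j g)⁻¹ v) := by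
  have h : Near k x z := ⟨g, hg, hz⟩
  have e : h.choose = g :=
    path_unique (h.choose_spec.1.trans (Nat.le_succ _)) (hg.trans (Nat.le_succ _))
      (h.choose_spec.2.trans hz.symm)
  simp only [kern, dif_pos h, e]

theorem kern_anchor {x : Base k} {f : Coef k} {fA : FreeGroup (Letter k) → ℝ}
    {g : FreeGroup (Letter k)} (hg : FreeGroup.norm g ≤ 2 * rad k + 1) {z : Base k}
    (hz : rho k g * x = z) : kern x f fA (Sum.inr z) = fA g := by
  have h : Near k x z := ⟨g, hg, hz⟩
  have e : h.choose = g :=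
    path_unique (h.choose_spec.1.trans (Nat.le_succ _)) (hg.trans (Nat.le_succ _))
      (h.choose_spec.2.trans hz.symm)
  simp only [kern, dif_pos h, e]

theorem kern_lift_far {x : Base k} {f : Coef k} {fA : FreeGroup (Letter k) → ℝ} {z : Base k}
    (hz : ¬ Near k x z) (j : ℕ) (v : Fib k j) : kern x f fA (Sum.inl ⟨j, z, v⟩) = 0 := by
  simp only [kern, dif_neg hz]

theorem kern_anchor_far {x : Base k} {f : Coef k} {fA : FreeGroup (Letter k) → ℝ} {z : Base k}
    (hz : ¬ Near k x z) : kern x f fA (Sum.inr z) = 0 := by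
  simp only [kern, dif_neg hz]

/-- A kernel is linear in its coefficients. -/
theorem kern_add (x : Base k) (f f' : Coef k) (fA fA' : FreeGroup (Letter k) → ℝ) (p : Pt k) :
    kern x f fA p + kern x f' fA' p =
      kern x (fun g j u => f g j u + f' g j u) (fun g => fA g + fA' g) p := by
  rcases p with ⟨j, z, v⟩ | z <;> simp only [kern] <;> split_ifs <;> simp

theorem kern_neg (x : Base k) (f : Coef k) (fA : FreeGroup (Letter k) → ℝ) (p : Pt k) :
    -kern x f fA p = kern x (fun g j u => -f g j u) (fun g => -fA g) p := by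
  rcases p with ⟨j, z, v⟩ | z <;> simp only [kern] <;> split_ifs <;> simp

theorem kern_sum {ι : Type} (s : Finset ι) (x : Base k) (f : ι → Coef k)
    (fA : ι → FreeGroup (Letter k) → ℝ) (p : Pt k) :
    ∑ i ∈ s, kern x (f i) (fA i) p =
      kern x (fun g j u => ∑ i ∈ s, f i g j u) (fun g => ∑ i ∈ s, fA i g) p := by
  rcases p with ⟨j, z, v⟩ | z <;> simp only [kern] <;> split_ifs <;> simp

/-- Coefficients vanishing from length `2 * rad k` on. -/
def Supp (k : ℕ) (f : Coef k) : Prop :=
  ∀ g : FreeGroup (Letter k), 2 * rad k ≤ FreeGroup.norm g → ∀ j u, f g j u = 0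

theorem kern_edge {x : Base k} {f : Coef k} {fA : FreeGroup (Letter k) → ℝ} (hf : Supp k f)
    (j : ℕ) (z : Base k) (v : Fib k j) (e : Letter k × Bool) :
    (kern x f fA (move k e j z v) = 0 ∧ kern x f fA (Sum.inl ⟨j, z, v⟩) = 0) ∨
      ∃ g u, fibHom k j g u = v ∧ kern x f fA (move k e j z v) = f (el e * g) j u ∧
        kern x f fA (Sum.inl ⟨j, z, v⟩) = f g j u := by
  by_cases hz : Near k x z
  · obtain ⟨g, hg, hgz⟩ := hz
    refine Or.inr ⟨g, (fibHom k j g)⁻¹ v, Equiv.apply_symm_apply _ _, ?_, kern_lift hg hgz j v⟩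
    have hz' : rho k (el e * g) * x = rho k (el e) * z := by
      rw [MonoidHom.map_mul, mul_assoc, hgz]
    have hv : (fibHom k j (el e * g))⁻¹ (fibHom k j (el e) v) = (fibHom k j g)⁻¹ v := by
      rw [MonoidHom.map_mul, mul_inv_rev, Equiv.Perm.mul_apply]
      exact congrArg _ (Equiv.symm_apply_apply _ _)
    rcases le_or_gt (FreeGroup.norm (el e * g)) (2 * rad k + 1) with hle | hgt
    · rw [move, kern_lift hle hz', hv]
    · rw [hf _ (by omega), move]
      by_cases hn : Near k x (rho k (el e) * z)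
      · obtain ⟨g', hg', hgz'⟩ := hn
        have := path_unique (x := x) (g := g') (g' := el e * g) (by omega)
          (by have := norm_el_mul_le e g; omega) (hgz'.trans hz'.symm)
        rw [this] at hg'
        omega
      · exact kern_lift_far hn _ _
  · by_cases hz' : Near k x (rho k (el e) * z)
    · obtain ⟨g', hg', hgz'⟩ := hz'
      refine Or.inr ⟨(el e)⁻¹ * g', (fibHom k j ((el e)⁻¹ * g'))⁻¹ v,
        Equiv.apply_symm_apply _ _, ?_, ?_⟩
      · rw [move, kern_lift hg' hgz', mul_inv_cancel_left]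
        congr 1
        rw [MonoidHom.map_mul, MonoidHom.map_inv, mul_inv_rev, inv_inv, Equiv.Perm.mul_apply]
      · rw [kern_lift_far hz, hf]
        by_contra hlt
        apply hz
        refine ⟨(el e)⁻¹ * g', by omega, ?_⟩
        rw [MonoidHom.map_mul, MonoidHom.map_inv, mul_assoc, hgz', inv_mul_cancel_left]
    · exact Or.inl ⟨kern_lift_far hz' _ _, kern_lift_far hz _ _⟩

theorem kern_lip {x : Base k} {f : Coef k} {fA : FreeGroup (Letter k) → ℝ} {b L : ℝ}
    (hb0 : 0 ≤ b) (hL : 0 ≤ L)
    (hf : Supp k f) (hb : ∀ g j u, |f g j u| ≤ b) (hbA : ∀ g, |fA g| ≤ b)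
    (hedge : ∀ g j u e, Present k j e.1 (fibHom k j g u) → |f (el e * g) j u - f g j u| ≤ L)
    (hanc : ∀ g j u, |f g j u - fA g| ≤ L * anchorLen k) (hsup : b ≤ L * rad k) :
    LipP k (kern x f fA) L := by
  refine ⟨fun j z v => ?_, fun j z v e he => ?_, fun p => ?_⟩
  · by_cases hz : Near k x z
    · obtain ⟨g, hg, hgz⟩ := hz
      rw [kern_lift hg hgz, kern_anchor hg hgz]
      exact hanc _ _ _
    · rw [kern_lift_far hz, kern_anchor_far hz, sub_zero, abs_zero]
      positivity
  · rcases kern_edge (fA := fA) hf j z v e with ⟨h1, h2⟩ | ⟨g, u, hu, h1, h2⟩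
    · rw [h1, h2, sub_zero, abs_zero]; exact hL
    · rw [h1, h2]
      exact hedge g j u e (by rw [hu]; exact he)
  · refine le_trans ?_ hsup
    rcases p with ⟨j, z, v⟩ | z
    · by_cases hz : Near k x z
      · obtain ⟨g, hg, hgz⟩ := hz
        rw [kern_lift hg hgz]; exact hb _ _ _
      · rw [kern_lift_far hz, abs_zero]; exact hb0
    · by_cases hz : Near k x z
      · obtain ⟨g, hg, hgz⟩ := hz
        rw [kern_anchor hg hgz]; exact hbA _
      · rw [kern_anchor_far hz, abs_zero]; exact hb0

/-- Moving the base point of a kernel with small support. -/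
theorem kern_shift {x : Base k} (e : Letter k × Bool) {f : Coef k}
    {fA : FreeGroup (Letter k) → ℝ}
    (hf : ∀ g, rad k ≤ FreeGroup.norm g → fA g = 0 ∧ ∀ j u, f g j u = 0) (p : Pt k) :
    kern (rho k (el e) * x) f fA p =
      kern x (fun g j u => f (g * el (flipL e)) j (fibHom k j (el e) u))
        (fun g => fA (g * el (flipL e))) p := by
  have hnear : ∀ {g : FreeGroup (Letter k)} {z : Base k}, rho k g * x = z →
      rho k (g * el (flipL e)) * (rho k (el e) * x) = z := fun {g z} h => by
    rw [el_flipL, MonoidHom.map_mul, MonoidHom.map_inv, mul_assoc, inv_mul_cancel_left, h]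
  have hback : ∀ {g' : FreeGroup (Letter k)} {z : Base k}, rho k g' * (rho k (el e) * x) = z →
      rho k (g' * el e) * x = z := fun {g' z} h => by
    rw [MonoidHom.map_mul, mul_assoc, h]
  have hfib : ∀ (g : FreeGroup (Letter k)) (j : ℕ) (v : Fib k j),
      fibHom k j (el e) ((fibHom k j g)⁻¹ v) = (fibHom k j (g * el (flipL e)))⁻¹ v := by
    intro g j v
    rw [el_flipL, MonoidHom.map_mul, MonoidHom.map_inv, mul_inv_rev, inv_inv, Equiv.Perm.mul_apply]
  -- the anchor and lift cases are parallel
  have hfar : ∀ {g : FreeGroup (Letter k)} {z : Base k}, rho k g * x = z →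
      FreeGroup.norm g ≤ 2 * rad k + 1 → 2 * rad k + 1 < FreeGroup.norm (g * el (flipL e)) →
      ¬ Near k (rho k (el e) * x) z := by
    rintro g z hgz hg hgt ⟨g', hg', hgz'⟩
    have := path_unique (x := rho k (el e) * x) (g := g') (g' := g * el (flipL e)) (by omega)
      (by have := norm_mul_el_le g (flipL e); omega) (hgz'.trans (hnear hgz).symm)
    rw [this] at hg'
    omega
  have hrad : 1 ≤ rad k := by
    have := one_le_cap k
    simp only [cap] at this
    omega
  have hsmall : ∀ {z : Base k}, ¬ Near k x z → ∀ g', rho k g' * (rho k (el e) * x) = z →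
      rad k ≤ FreeGroup.norm g' := by
    intro z hz g' hgz'
    by_contra hlt
    exact hz ⟨g' * el e, by have := norm_mul_el_le g' e; omega, hback hgz'⟩
  rcases p with ⟨j, z, v⟩ | z
  · by_cases hz : Near k x z
    · obtain ⟨g, hg, hgz⟩ := hz
      rw [kern_lift hg hgz]
      rcases le_or_gt (FreeGroup.norm (g * el (flipL e))) (2 * rad k + 1) with hle | hgt
      · rw [kern_lift hle (hnear hgz), hfib]
      · rw [kern_lift_far (hfar hgz hg hgt), (hf _ (by omega)).2]
    · rw [kern_lift_far hz]
      by_cases hz' : Near k (rho k (el e) * x) z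
      · obtain ⟨g', hg', hgz'⟩ := hz'
        rw [kern_lift hg' hgz', (hf _ (hsmall hz g' hgz')).2]
      · rw [kern_lift_far hz']
  · by_cases hz : Near k x z
    · obtain ⟨g, hg, hgz⟩ := hz
      rw [kern_anchor hg hgz]
      rcases le_or_gt (FreeGroup.norm (g * el (flipL e))) (2 * rad k + 1) with hle | hgt
      · rw [kern_anchor hle (hnear hgz)]
      · rw [kern_anchor_far (hfar hgz hg hgt), (hf _ (by omega)).1]
    · rw [kern_anchor_far hz]
      by_cases hz' : Near k (rho k (el e) * x) z
      · obtain ⟨g', hg', hgz'⟩ := hz'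
        rw [kern_anchor hg' hgz', (hf _ (hsmall hz g' hgz')).1]
      · rw [kern_anchor_far hz']

/-- A path whose edges are all present. -/
def okList (k j : ℕ) : List (Letter k × Bool) → Fib k j → Prop
  | [], _ => True
  | e :: t, u => Present k j e.1 (fibHom k j (FreeGroup.mk t) u) ∧ okList k j t u

theorem okList_concat {j : ℕ} (t : List (Letter k × Bool)) (e : Letter k × Bool) (u : Fib k j) :
    okList k j (t ++ [e]) u ↔ okList k j t (fibHom k j (el e) u) ∧ Present k j e.1 u := by
  induction t with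
  | nil => simp [okList, ← FreeGroup.one_eq_mk]
  | cons a t ih =>
    simp only [List.cons_append, okList, ih]
    have h : fibHom k j (FreeGroup.mk (t ++ [e])) u =
        fibHom k j (FreeGroup.mk t) (fibHom k j (el e) u) := by
      rw [el, ← FreeGroup.mul_mk, MonoidHom.map_mul, Equiv.Perm.mul_apply]
    rw [h, and_assoc]

/-- All edges of the lifted path of `g` from the fibre point `u` are present. -/
def Intact (k j : ℕ) (g : FreeGroup (Letter k)) (u : Fib k j) : Prop := okList k j g.toWord u

theorem intact_one {j : ℕ} (u : Fib k j) : Intact k j 1 u := by simp [Intact, okList]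

theorem intact_el {j : ℕ} {e : Letter k × Bool} {u : Fib k j} :
    Intact k j (el e) u ↔ Present k j e.1 u := by
  simp [Intact, toWord_el, okList, ← FreeGroup.one_eq_mk]

theorem intact_left {j : ℕ} {e : Letter k × Bool} {g : FreeGroup (Letter k)} {u : Fib k j}
    (h : Present k j e.1 (fibHom k j g u)) : Intact k j (el e * g) u ↔ Intact k j g u := by
  rcases toWord_el_mul e g with ⟨t, h1, h2⟩ | ⟨-, h2⟩
  · simp only [Intact, h2, h1, okList]
    refine (and_iff_right ?_).symm
    have hg : g = el (flipL e) * FreeGroup.mk t := by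
      rw [el, FreeGroup.mul_mk, List.singleton_append, ← h1, FreeGroup.mk_toWord]
    rw [hg, MonoidHom.map_mul, Equiv.Perm.mul_apply] at h
    exact (present_act (flipL e) _).mp h
  · simp only [Intact, h2, okList, FreeGroup.mk_toWord]
    exact and_iff_right h

theorem intact_right {j : ℕ} {e : Letter k × Bool} {g : FreeGroup (Letter k)} {u : Fib k j} :
    (Present k j e.1 u → (Intact k j (g * el e) u ↔ Intact k j g (fibHom k j (el e) u))) ∧
      (Intact k j (g * el e) u → Intact k j g (fibHom k j (el e) u) → Present k j e.1 u) := by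
  rcases toWord_mul_el g e with ⟨t, h1, h2⟩ | ⟨-, h2⟩
  · have hu : fibHom k j (el (flipL e)) (fibHom k j (el e) u) = u := by
      rw [el_flipL, MonoidHom.map_inv]; exact Equiv.symm_apply_apply _ _
    simp only [Intact, h2, h1, okList_concat, hu]
    rw [show (flipL e).1 = e.1 from rfl, present_act e u]
    tauto
  · simp only [Intact, h2, okList_concat]
    tauto

theorem intact_first {j : ℕ} {e : Letter k × Bool} {g : FreeGroup (Letter k)} {u : Fib k j}
    (h : Intact k j g u) (he : firstStep g = some e) : Present k j e.1 u := by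
  obtain ⟨t, ht⟩ := List.getLast?_eq_some_iff.mp he
  rw [Intact, ht, okList_concat] at h
  exact h.2

/-- The tent of radius `rad k`. -/
noncomputable def tent (k : ℕ) (g : FreeGroup (Letter k)) : ℝ :=
  max 0 (1 - (FreeGroup.norm g : ℝ) / rad k)

theorem rad_pos (k : ℕ) : 0 < rad k := by
  have := one_le_cap k; simp only [cap] at this; omega

theorem tent_nonneg (g : FreeGroup (Letter k)) : 0 ≤ tent k g := le_max_left _ _

theorem tent_le_one (g : FreeGroup (Letter k)) : tent k g ≤ 1 :=
  max_le zero_le_one (by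
    have : (0 : ℝ) ≤ (FreeGroup.norm g : ℝ) / rad k := by positivity
    linarith)

theorem tent_eq_zero {g : FreeGroup (Letter k)} (h : rad k ≤ FreeGroup.norm g) : tent k g = 0 := by
  have : (1 : ℝ) ≤ (FreeGroup.norm g : ℝ) / rad k := by
    rw [one_le_div (by exact_mod_cast rad_pos k)]; exact_mod_cast h
  exact max_eq_left (by linarith)

theorem tent_one : tent k 1 = 1 := by simp [tent, FreeGroup.norm]

theorem tent_diff {g g' : FreeGroup (Letter k)} (h : FreeGroup.norm g ≤ FreeGroup.norm g' + 1)
    (h' : FreeGroup.norm g' ≤ FreeGroup.norm g + 1) : |tent k g - tent k g'| ≤ 1 / rad k := by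
  have hR : (0 : ℝ) < rad k := by exact_mod_cast rad_pos k
  have e1 : (FreeGroup.norm g : ℝ) ≤ FreeGroup.norm g' + 1 := by exact_mod_cast h
  have e2 : (FreeGroup.norm g' : ℝ) ≤ FreeGroup.norm g + 1 := by exact_mod_cast h'
  rw [tent, tent, max_comm 0, max_comm 0]
  refine (abs_max_sub_max_le_abs _ _ _).trans ?_
  rw [sub_sub_sub_cancel_left, ← sub_div, abs_div, abs_of_pos hR]
  exact div_le_div_of_nonneg_right (abs_sub_le_iff.mpr ⟨by linarith, by linarith⟩) hR.le

theorem tent_diff_left (e : Letter k × Bool) (g : FreeGroup (Letter k)) :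
    |tent k (el e * g) - tent k g| ≤ 1 / rad k :=
  tent_diff (norm_el_mul_le e g) (norm_le_el_mul e g)

theorem tent_diff_right (g : FreeGroup (Letter k)) (e : Letter k × Bool) :
    |tent k (g * el e) - tent k g| ≤ 1 / rad k :=
  tent_diff (norm_mul_el_le g e) (norm_le_mul_el g e)

end Vale.Agent.P090
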