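import Vale.Agent.P090.Kernel

/-!
Pairings of the measures with kernels: moving the base point along an edge, and the smallness of
the part of a kernel lying at anchors and on broken paths.
-/

namespace Vale.Agent.P090

open Classical Finset

noncomputable section

variable {k : ℕ}

instance : Fintype (Base k) := Fintype.ofFinite _

theorem anchorLen_cast (k : ℕ) : (anchorLen k : ℝ) = 10000 * lam k := by
  simp [anchorLen, big_eq]

theorem rad_cast (k : ℕ) : (rad k : ℝ) = 10000 * lam k * (10000 * lam k) := by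
  simp [rad, anchorLen, big_eq]

theorem two_le_lam (k : ℕ) : (2 : ℝ) ≤ lam k := by
  exact_mod_cast (Nat.le_add_left 2 k : 2 ≤ k + 2)

theorem anchorLen_pos (k : ℕ) : (0 : ℝ) < anchorLen k := by
  exact_mod_cast one_le_anchorLen k

theorem rad_pos' (k : ℕ) : (0 : ℝ) < rad k := by exact_mod_cast rad_pos k

theorem lam_div_anchor (k : ℕ) : (lam k : ℝ) * (1 / anchorLen k) = 1 / 10000 := by
  have := two_le_lam k
  rw [anchorLen_cast]; field_simp

theorem lam_anchor_div_rad (k : ℕ) :
    (lam k : ℝ) * anchorLen k * (1 / rad k) = 1 / 10000 := by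
  have := two_le_lam k
  rw [anchorLen_cast, rad_cast]; field_simp

theorem inv_rad_le (k : ℕ) : 1 / (rad k : ℝ) ≤ 1 / 10000 := by
  have := two_le_lam k
  rw [rad_cast]
  exact one_div_le_one_div_of_le (by norm_num) (by nlinarith)

theorem inv_rad_le_inv_anchor (k : ℕ) : 1 / (rad k : ℝ) ≤ 1 / anchorLen k := by
  have := two_le_lam k
  rw [rad_cast, anchorLen_cast]
  exact one_div_le_one_div_of_le (by positivity) (by nlinarith)

/-- The pairing of the measure at `p` with a function. -/
def Op.pair (op : Op k) (p : Pt k) (ψ : Pt k → ℝ) : ℝ := ∑ q ∈ op.B, op.ν p q * ψ q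

theorem pair_congr (op : Op k) (p : Pt k) {ψ ψ' : Pt k → ℝ} (h : ∀ q ∈ op.B, ψ q = ψ' q) :
    op.pair p ψ = op.pair p ψ' :=
  sum_congr rfl fun q hq => by rw [h q hq]

theorem pair_add (op : Op k) (p : Pt k) (ψ ψ' : Pt k → ℝ) :
    op.pair p (fun q => ψ q + ψ' q) = op.pair p ψ + op.pair p ψ' := by
  simp [Op.pair, mul_add, sum_add_distrib]

theorem pair_sub (op : Op k) (p : Pt k) (ψ ψ' : Pt k → ℝ) :
    op.pair p (fun q => ψ q - ψ' q) = op.pair p ψ - op.pair p ψ' := by
  simp [Op.pair, mul_sub, sum_sub_distrib]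

theorem pair_sum {ι : Type} (op : Op k) (p : Pt k) (s : Finset ι) (ψ : ι → Pt k → ℝ) :
    op.pair p (fun q => ∑ i ∈ s, ψ i q) = ∑ i ∈ s, op.pair p (ψ i) := by
  simp only [Op.pair, mul_sum]
  exact sum_comm

theorem pair_mul (op : Op k) (p : Pt k) (r : ℝ) (ψ : Pt k → ℝ) :
    op.pair p (fun q => r * ψ q) = r * op.pair p ψ := by
  simp only [Op.pair, mul_sum]
  exact sum_congr rfl fun q _ => by ring

theorem kern_at_base (x : Base k) (f : Coef k) (fA : FreeGroup (Letter k) → ℝ) :
    kern x f fA (Sum.inr x) = fA 1 :=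
  kern_anchor (g := 1) (by simp [FreeGroup.norm]) (by simp)

theorem near_anchor (op : Op k) {ψ : Pt k → ℝ} {L : ℝ} (hL : 0 < L) (h : LipP k ψ L) (j : ℕ)
    (z : Base k) (v : Fib k j) :
    |op.pair (Sum.inl ⟨j, z, v⟩) ψ - ψ (Sum.inr z)| ≤ 2 * (lam k * anchorLen k * L) := by
  have h1 : |op.pair (Sum.inl ⟨j, z, v⟩) ψ - op.pair (Sum.inr z) ψ| ≤ lam k * L * anchorLen k :=
    op.anchor ψ L hL h j z v
  have h2 : |op.pair (Sum.inr z) ψ - ψ (Sum.inr z)| ≤ L := op.fix ψ L hL h z
  have h3 : L ≤ lam k * anchorLen k * L := by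
    refine le_mul_of_one_le_left hL.le ?_
    have := two_le_lam k
    rw [anchorLen_cast]
    nlinarith
  have := abs_sub_le (op.pair (Sum.inl ⟨j, z, v⟩) ψ) (op.pair (Sum.inr z) ψ) (ψ (Sum.inr z))
  linarith

/-- Kernels of coefficients bounded by `1` and moving by `1 / G` along present edges. -/
theorem lip_unit {x : Base k} {f : Coef k} {fA : FreeGroup (Letter k) → ℝ} (hf : Supp k f)
    (hb : ∀ g j u, |f g j u| ≤ 1) (hbA : ∀ g, |fA g| ≤ 1) (hd : ∀ g j u, |f g j u - fA g| ≤ 1)
    (hedge : ∀ g j u e, Present k j e.1 (fibHom k j g u) →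
      |f (el e * g) j u - f g j u| ≤ 1 / anchorLen k) :
    LipP k (kern x f fA) (1 / anchorLen k) := by
  have hG := anchorLen_pos k
  refine kern_lip zero_le_one (by positivity) hf hb hbA hedge
    (fun g j u => (hd g j u).trans (le_of_eq ?_)) ?_
  · field_simp
  · have h := inv_rad_le_inv_anchor k
    have hR := rad_pos' k
    calc (1 : ℝ) = 1 / rad k * rad k := by field_simp
      _ ≤ 1 / anchorLen k * rad k := mul_le_mul_of_nonneg_right h hR.le

theorem pair_unit (op : Op k) {x : Base k} {f : Coef k} {fA : FreeGroup (Letter k) → ℝ}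
    (h : LipP k (kern x f fA) (1 / anchorLen k)) (j : ℕ) (v : Fib k j) :
    |op.pair (Sum.inl ⟨j, x, v⟩) (kern x f fA) - fA 1| ≤ 2 * lam k := by
  have hG := anchorLen_pos k
  have h1 := near_anchor op (div_pos one_pos hG) h j x v
  rw [kern_at_base] at h1
  refine h1.trans (le_of_eq ?_)
  field_simp

/-- The two coefficient families vanish from length `rad k` on. -/
def Small (k : ℕ) (f : Coef k) (fA : FreeGroup (Letter k) → ℝ) : Prop :=
  ∀ g, rad k ≤ FreeGroup.norm g → fA g = 0 ∧ ∀ j u, f g j u = 0

theorem Small.supp {f : Coef k} {fA : FreeGroup (Letter k) → ℝ} (h : Small k f fA) :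
    Supp k f := fun g hg => (h g (by omega)).2

theorem pair_small (op : Op k) {x : Base k} {D : Coef k} {DA : FreeGroup (Letter k) → ℝ}
    (hs : Supp k D) (hD : ∀ g j u, |D g j u| ≤ 1 / rad k) (hA : ∀ g, |DA g| ≤ 1 / rad k)
    (j : ℕ) (v : Fib k j) :
    |op.pair (Sum.inl ⟨j, x, v⟩) (kern x D DA)| ≤ 5 / 10000 := by
  have hR := rad_pos' k
  have hlip : LipP k (kern x D DA) (2 / rad k) := by
    refine kern_lip (b := 1 / rad k) (by positivity) (by positivity) hs hD hA
      (fun g j u e _ => ?_) (fun g j u => ?_) ?_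
    · refine (abs_sub _ _).trans ((add_le_add (hD _ _ _) (hD _ _ _)).trans (le_of_eq (by ring)))
    · refine (abs_sub _ _).trans ((add_le_add (hD _ _ _) (hA _)).trans ?_)
      calc 1 / (rad k : ℝ) + 1 / rad k = 2 / rad k * 1 := by ring
        _ ≤ _ := mul_le_mul_of_nonneg_left (by exact_mod_cast one_le_anchorLen k) (by positivity)
    · have := inv_rad_le k
      rw [div_mul_cancel₀ _ hR.ne']
      linarith
  have h1 := near_anchor op (by positivity) hlip j x v
  rw [kern_at_base] at h1
  have h2 : 2 * ((lam k : ℝ) * anchorLen k * (2 / rad k)) = 4 / 10000 := by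
    have := lam_anchor_div_rad k
    calc 2 * ((lam k : ℝ) * anchorLen k * (2 / rad k))
        = 4 * (lam k * anchorLen k * (1 / rad k)) := by ring
      _ = _ := by rw [this]; norm_num
  rw [h2] at h1
  have := hA 1
  have := inv_rad_le k
  have := abs_sub_abs_le_abs_sub (op.pair (Sum.inl ⟨j, x, v⟩) (kern x D DA)) (DA 1)
  linarith

/-- Moving the point and the kernel along an edge. -/
theorem shift_pair (op : Op k) {N : ℕ} (x : Base k) (w : Fib k N) (e : Letter k × Bool)
    (he : Present k N e.1 w) {f f' : Coef k} {fA fA' : FreeGroup (Letter k) → ℝ}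
    (hf : Small k f fA) (hf' : Small k f' fA')
    (hlip : LipP k (kern (rho k (el e) * x) f' fA') (1 / anchorLen k))
    (hD : ∀ g j u, |f' (g * el (flipL e)) j (fibHom k j (el e) u) - f g j u| ≤ 1 / rad k)
    (hA : ∀ g, |fA' (g * el (flipL e)) - fA g| ≤ 1 / rad k) :
    |op.pair (move k e N x w) (kern (rho k (el e) * x) f' fA') -
      op.pair (Sum.inl ⟨N, x, w⟩) (kern x f fA)| ≤ 6 / 10000 := by
  set p : Pt k := Sum.inl ⟨N, x, w⟩
  set ψ := kern (rho k (el e) * x) f' fA'
  have h1 : |op.pair (move k e N x w) ψ - op.pair p ψ| ≤ lam k * (1 / anchorLen k) :=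
    op.edge ψ _ (div_pos one_pos (anchorLen_pos k)) hlip N x w e he
  rw [lam_div_anchor] at h1
  set D : Coef k := fun g j u => f' (g * el (flipL e)) j (fibHom k j (el e) u) - f g j u with hDdef
  set DA := fun g => fA' (g * el (flipL e)) - fA g with hDAdef
  have hsupp : Supp k D := fun g hg j u => by
    have h2 := norm_le_mul_el g (flipL e)
    have hR := rad_pos k
    simp only [hDdef, (hf' _ (show rad k ≤ FreeGroup.norm (g * el (flipL e)) by omega)).2,
      (hf g (by omega)).2, sub_self]
  have h2 := pair_small op (x := x) hsupp hD hA N w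
  have h3 : op.pair p (kern x D DA) = op.pair p ψ - op.pair p (kern x f fA) := by
    rw [← pair_sub]
    refine pair_congr op p fun q _ => ?_
    rw [show ψ q = _ from kern_shift e hf' q, eq_sub_iff_add_eq, kern_add]
    simp [hDdef, hDAdef]
  change |op.pair p (kern x D DA)| ≤ 5 / 10000 at h2
  rw [h3] at h2
  have := abs_sub_le (op.pair (move k e N x w) ψ) (op.pair p ψ) (op.pair p (kern x f fA))
  linarith

theorem firstStep_flip (g : FreeGroup (Letter k)) (e : Letter k × Bool) :
    firstStep (g * el (flipL e)) = some (flipL e) ↔ firstStep g ≠ some e := by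
  rcases toWord_mul_el g (flipL e) with ⟨t, h1, h2⟩ | ⟨h1, h2⟩
  · rw [flipL_flipL] at h1
    simp only [firstStep, h1, h2, List.getLast?_concat, ne_eq, not_true, iff_false]
    intro hl
    rcases toWord_mul_el (g * el (flipL e)) e with ⟨t', h3, h4⟩ | ⟨h3, -⟩
    · rw [mul_assoc, el_flipL, inv_mul_cancel, mul_one, h1] at h4
      rw [h2, ← h4] at h3
      simpa using congrArg List.length h3
    · exact h3 (by rw [h2]; exact hl)
  · rw [flipL_flipL] at h1
    simp only [firstStep, h2, List.getLast?_concat, true_iff]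
    exact h1

theorem firstStep_left {e : Letter k × Bool} {g : FreeGroup (Letter k)} (h : g ≠ 1)
    (h' : el e * g ≠ 1) : firstStep (el e * g) = firstStep g := by
  have hne : ∀ {g : FreeGroup (Letter k)}, g ≠ 1 → g.toWord ≠ [] := fun h =>
    fun hw => h (FreeGroup.toWord_eq_nil_iff.mp hw)
  rcases toWord_el_mul e g with ⟨t, h1, h2⟩ | ⟨-, h2⟩
  · have := hne h'
    rw [h2] at this
    simp only [firstStep, h1, h2]
    obtain ⟨a, s, rfl⟩ := List.exists_cons_of_ne_nil this
    exact List.getLast?_cons_cons.symm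
  · obtain ⟨a, s, hs⟩ := List.exists_cons_of_ne_nil (hne h)
    simp only [firstStep, h2, hs, List.getLast?_cons_cons]

/-- The coefficients of broken paths, weighted by the first step. -/
def fBad (q : Option (Letter k × Bool) → ℝ) : Coef k := fun g j u =>
  if Intact k j g u then 0 else q (firstStep g) * tent k g

/-- The coefficients at anchors, weighted by the first step. -/
def fAnc (q : Option (Letter k × Bool) → ℝ) : FreeGroup (Letter k) → ℝ := fun g =>
  q (firstStep g) * tent k g

theorem small_bad (q : Option (Letter k × Bool) → ℝ) : Small k (fBad q) (fAnc q) := fun g hg =>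
  ⟨by simp [fAnc, tent_eq_zero hg], fun j u => by simp [fBad, tent_eq_zero hg]⟩

theorem bad_lip {q : Option (Letter k × Bool) → ℝ} (hq : ∀ o, |q o| ≤ 1) (x : Base k) :
    LipP k (kern x (fBad q) (fAnc q)) (1 / anchorLen k) := by
  have hmul : ∀ g : FreeGroup (Letter k), |q (firstStep g) * tent k g| ≤ 1 := fun g => by
    rw [abs_mul, abs_of_nonneg (tent_nonneg g)]
    exact mul_le_one₀ (hq _) (tent_nonneg g) (tent_le_one g)
  refine lip_unit (small_bad q).supp (fun g j u => ?_) hmul (fun g j u => ?_) fun g j u e he => ?_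
  · unfold fBad; split_ifs
    · simp
    · exact hmul g
  · unfold fBad fAnc; split_ifs
    · simpa using hmul g
    · simp
  · have hi := intact_left he
    unfold fBad
    by_cases hg : Intact k j g u
    · rw [if_pos (hi.mpr hg), if_pos hg, sub_zero, abs_zero]
      exact div_nonneg zero_le_one (anchorLen_pos k).le
    · have hg' : ¬ Intact k j (el e * g) u := fun h => hg (hi.mp h)
      have h1 : g ≠ 1 := fun h => hg (h ▸ intact_one u)
      have h1' : el e * g ≠ 1 := fun h => hg' (h ▸ intact_one u)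
      rw [if_neg hg', if_neg hg, firstStep_left h1 h1', ← mul_sub, abs_mul]
      calc |q (firstStep g)| * |tent k (el e * g) - tent k g| ≤ 1 * (1 / rad k) :=
            mul_le_mul (hq _) (tent_diff_left e g) (abs_nonneg _) zero_le_one
        _ ≤ _ := by rw [one_mul]; exact inv_rad_le_inv_anchor k

/-- The sum over all base points of the pairings with broken kernels. -/
def Op.bad (op : Op k) (N : ℕ) (q : Option (Letter k × Bool) → ℝ) : ℝ :=
  ∑ a : Base k × Fib k N, op.pair (Sum.inl ⟨N, a.1, a.2⟩) (kern a.1 (fBad q) (fAnc q))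

theorem bad_add (op : Op k) (N : ℕ) (q q' : Option (Letter k × Bool) → ℝ) :
    op.bad N (fun o => q o + q' o) = op.bad N q + op.bad N q' := by
  simp only [Op.bad, ← sum_add_distrib, ← pair_add]
  refine sum_congr rfl fun a _ => pair_congr op _ fun p _ => ?_
  rw [kern_add]
  congr 1
  · funext g j u; unfold fBad; split_ifs <;> ring
  · funext g; unfold fAnc; ring

theorem bad_sum (op : Op k) (N : ℕ) {ι : Type} (s : Finset ι)
    (q : ι → Option (Letter k × Bool) → ℝ) :
    op.bad N (fun o => ∑ i ∈ s, q i o) = ∑ i ∈ s, op.bad N (q i) := by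
  simp only [Op.bad]
  rw [sum_comm]
  refine sum_congr rfl fun a _ => ?_
  rw [← pair_sum]
  refine pair_congr op _ fun p _ => ?_
  rw [kern_sum]
  congr 1
  · funext g j u; simp only [fBad]; split_ifs <;> simp [sum_mul]
  · funext g; simp [fAnc, sum_mul]

/-- Moving along a signed letter as a permutation of base points. -/
def stepEquiv (N : ℕ) (e : Letter k × Bool) : Equiv.Perm (Base k × Fib k N) :=
  (Equiv.mulLeft (rho k (el e))).prodCongr (fibHom k N (el e))

theorem bad_pair (op : Op k) (N : ℕ) (c : Fin 4 × Fin (numCopy k)) (b : Bool) :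
    |op.bad N (fun o => if o = some (Sum.inl c, !b) then (1 : ℝ) else 0) -
      op.bad N (fun o => if o = some (Sum.inl c, b) then (0 : ℝ) else 1)| ≤
      Fintype.card (Base k × Fib k N) * (6 / 10000) := by
  set e : Letter k × Bool := (Sum.inl c, b) with he
  rw [show ((Sum.inl c, !b) : Letter k × Bool) = flipL e from rfl]
  set q' := fun o : Option (Letter k × Bool) => if o = some (flipL e) then (1 : ℝ) else 0 with hq'
  set q := fun o : Option (Letter k × Bool) => if o = some e then (0 : ℝ) else 1 with hq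
  have h1 : op.bad N q' = ∑ a : Base k × Fib k N, op.pair (move k e N a.1 a.2)
      (kern (rho k (el e) * a.1) (fBad q') (fAnc q')) :=
    (Equiv.sum_comp (stepEquiv N e) _).symm
  rw [h1, Op.bad, ← sum_sub_distrib]
  refine (abs_sum_le_sum_abs _ _).trans ?_
  rw [← nsmul_eq_mul, ← card_univ, ← sum_const]
  have hqv : ∀ g, q' (firstStep (g * el (flipL e))) = q (firstStep g) := fun g => by
    simp only [hq, hq', firstStep_flip]
    by_cases h : firstStep g = some e <;> simp [h]
  have hq1 : ∀ o, |q o| ≤ 1 := fun o => by simp only [hq]; split_ifs <;> simp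
  have key : ∀ g, |q (firstStep g) * tent k (g * el (flipL e)) - q (firstStep g) * tent k g| ≤
      1 / rad k := fun g => by
    rw [← mul_sub, abs_mul]
    calc |q (firstStep g)| * |tent k (g * el (flipL e)) - tent k g| ≤ 1 * (1 / rad k) :=
          mul_le_mul (hq1 _) (tent_diff_right g _) (abs_nonneg _) zero_le_one
      _ = _ := one_mul _
  refine sum_le_sum fun a _ => shift_pair op a.1 a.2 e trivial (small_bad q) (small_bad q')
    (bad_lip (fun o => by simp only [hq']; split_ifs <;> simp) _) (fun g j u => ?_) fun g => ?_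
  · have hu : fibHom k j (el (flipL e)) (fibHom k j (el e) u) = u := by
      rw [el_flipL, MonoidHom.map_inv]; exact Equiv.symm_apply_apply _ _
    have hi := (intact_right (g := g) (e := flipL e) (u := fibHom k j (el e) u)).1
      (show Present k j (Sum.inl c) _ from trivial)
    rw [hu] at hi
    unfold fBad
    simp only [hi, hqv]
    split_ifs
    · simp only [sub_self, abs_zero]; exact div_nonneg zero_le_one (rad_pos' k).le
    · exact key g
  · simp only [fAnc, hqv]; exact key g

theorem bad_small (op : Op k) (N : ℕ) :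
    |op.bad N (fun _ => 1)| ≤ Fintype.card (Base k × Fib k N) / 100 := by
  set T : ℝ := (Fintype.card (Base k × Fib k N) : ℝ) with hT
  let d : (Fin 4 × Fin (numCopy k)) × Bool → Option (Letter k × Bool) → ℝ := fun c o =>
    if o = some (Sum.inl c.1, c.2) then 1 else 0
  let q0 : Option (Letter k × Bool) → ℝ := fun o => 1 - ∑ c, d c o
  have hd : ∀ o, (∑ c, d c o) = 0 ∨ (∑ c, d c o) = 1 := by
    rintro (_ | ⟨c | c, b⟩)
    · left; simp [d]
    · right
      rw [Fintype.sum_eq_single (c, b) fun c' hc' => ?_]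
      · simp [d]
      · simp only [d, ite_eq_right_iff, one_ne_zero, imp_false]
        intro h
        simp only [Option.some.injEq, Prod.mk.injEq, Sum.inl.injEq] at h
        exact hc' (Prod.ext h.1.symm h.2.symm)
    · left; simp [d]
  have hsplit : op.bad N (fun _ => 1) = (∑ c, op.bad N (d c)) + op.bad N q0 := by
    rw [← bad_sum op N univ d, ← bad_add]
    congr 1; funext o; simp [q0]
  have hq0 : |op.bad N q0| ≤ T * (1 + 2 * lam k) := by
    refine (abs_sum_le_sum_abs _ _).trans ?_
    rw [hT, ← nsmul_eq_mul, ← card_univ, ← sum_const]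
    refine sum_le_sum fun a _ => ?_
    have h1 : ∀ o, |q0 o| ≤ 1 := fun o => by rcases hd o with h | h <;> simp [q0, h]
    have h2 := pair_unit op (bad_lip h1 a.1) N a.2
    have h3 : fAnc q0 1 = 1 := by simp [fAnc, q0, d, firstStep_one, tent_one]
    rw [h3] at h2
    have := abs_sub_abs_le_abs_sub (op.pair (Sum.inl ⟨N, a.1, a.2⟩)
      (kern a.1 (fBad q0) (fAnc q0))) 1
    rw [abs_one] at this
    linarith
  set U := op.bad N (fun _ => 1)
  have hpair : ∀ c : (Fin 4 × Fin (numCopy k)) × Bool,
      |op.bad N (d (c.1, !c.2)) + op.bad N (d c) - U| ≤ T * (6 / 10000) := fun c => by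
    refine le_trans (le_of_eq ?_) (bad_pair op N c.1 c.2)
    congr 1
    have : U = op.bad N (d c) +
        op.bad N (fun o => if o = some (Sum.inl c.1, c.2) then (0 : ℝ) else 1) := by
      rw [← bad_add]
      refine congrArg (op.bad N) (funext fun o => ?_)
      simp only [d]; split_ifs <;> simp
    simp only [d] at this ⊢
    linarith
  have hflip : ∑ c : (Fin 4 × Fin (numCopy k)) × Bool, op.bad N (d (c.1, !c.2)) =
      ∑ c, op.bad N (d c) :=
    Equiv.sum_comp ((Equiv.refl _).prodCongr ⟨not, not, Bool.not_not, Bool.not_not⟩)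
      fun c => op.bad N (d c)
  set m : ℝ := (numCopy k : ℝ) with hm
  have hcard : (Fintype.card ((Fin 4 × Fin (numCopy k)) × Bool) : ℝ) = 8 * m := by
    simp [hm]; ring
  have hsum := (abs_sum_le_sum_abs (fun c => op.bad N (d (c.1, !c.2)) + op.bad N (d c) - U) univ)
    |>.trans (sum_le_sum fun c _ => hpair c)
  simp only [sum_sub_distrib, sum_add_distrib, hflip, sum_const, card_univ, nsmul_eq_mul,
    hcard] at hsum
  have hlam := two_le_lam k
  have hm1 : 3200 * (lam k : ℝ) ≤ m := by
    rw [hm, numCopy_eq, numCut_eq]; push_cast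
    have := mul_le_mul_of_nonneg_left hlam (show (0 : ℝ) ≤ 3200 * lam k by positivity)
    linarith
  have hT0 : 0 ≤ T := Nat.cast_nonneg _
  have hTm : T * (3200 * (lam k : ℝ)) ≤ T * m := mul_le_mul_of_nonneg_left hm1 hT0
  have hTl : T * 2 ≤ T * (lam k : ℝ) := mul_le_mul_of_nonneg_left hlam hT0
  rw [abs_le] at hsum hq0
  rw [abs_le]
  constructor
  · by_contra hlt
    push Not at hlt
    linarith [mul_lt_mul_of_pos_left hlt (show (0 : ℝ) < 8 * m - 2 by linarith)]
  · by_contra hlt
    push Not at hlt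
    linarith [mul_lt_mul_of_pos_left hlt (show (0 : ℝ) < 8 * m - 2 by linarith)]

end

end Vale.Agent.P090
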