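import Mathlib

/-!
Reduced words in free groups, and finite quotients without short relations.
-/

namespace Vale.Agent.P090

open FreeGroup

set_option linter.unusedSectionVars false

variable {I : Type} [DecidableEq I]

/-- The group element of a signed letter. -/
def el (e : I × Bool) : FreeGroup I := FreeGroup.mk [e]

/-- The inverse signed letter. -/
def flipL (e : I × Bool) : I × Bool := (e.1, !e.2)

theorem flipL_flipL (e : I × Bool) : flipL (flipL e) = e := by simp [flipL]

theorem flipL_ne (e : I × Bool) : flipL e ≠ e := by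
  intro h
  have := congrArg Prod.snd h
  simp [flipL] at this

theorem el_flipL (e : I × Bool) : el (flipL e) = (el e)⁻¹ := by
  simp [el, flipL, FreeGroup.inv_mk, FreeGroup.invRev]

theorem toWord_el (e : I × Bool) : (el e).toWord = [e] := by
  rw [el, FreeGroup.toWord_mk]; rfl

theorem norm_el (e : I × Bool) : FreeGroup.norm (el e) = 1 := by
  simp [FreeGroup.norm, toWord_el]

/-- Prepending a letter either cancels the first letter or lengthens the word. -/
theorem toWord_el_mul (e : I × Bool) (g : FreeGroup I) :
    (∃ t, g.toWord = flipL e :: t ∧ (el e * g).toWord = t) ∨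
      (g.toWord.head? ≠ some (flipL e) ∧ (el e * g).toWord = e :: g.toWord) := by
  have h : (el e * g).toWord = FreeGroup.reduce (e :: g.toWord) := by
    rw [FreeGroup.toWord_mul, toWord_el]; rfl
  rw [FreeGroup.reduce.cons, FreeGroup.reduce_toWord] at h
  cases hw : g.toWord with
  | nil => rw [hw] at h; exact Or.inr ⟨by simp, h⟩
  | cons a t =>
    rw [hw] at h
    simp only at h
    by_cases hc : e.1 = a.1 ∧ e.2 = !a.2
    · rw [if_pos hc] at h
      refine Or.inl ⟨t, ?_, h⟩
      rw [show a = flipL e from Prod.ext hc.1.symm (by simp [flipL, hc.2])]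
    · rw [if_neg hc] at h
      refine Or.inr ⟨?_, h⟩
      intro ha
      simp only [List.head?_cons, Option.some.injEq] at ha
      exact hc (by subst ha; simp [flipL])

/-- Appending a letter either cancels the last letter or lengthens the word. -/
theorem toWord_mul_el (g : FreeGroup I) (e : I × Bool) :
    (∃ t, g.toWord = t ++ [flipL e] ∧ (g * el e).toWord = t) ∨
      (g.toWord.getLast? ≠ some (flipL e) ∧ (g * el e).toWord = g.toWord ++ [e]) := by
  have key : (g * el e).toWord = FreeGroup.invRev (el (flipL e) * g⁻¹).toWord := by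
    rw [← FreeGroup.toWord_inv, mul_inv_rev, inv_inv, el_flipL, inv_inv]
  have hone : ∀ a : I × Bool, FreeGroup.invRev [a] = [flipL a] := fun a => rfl
  have hw : g.toWord = FreeGroup.invRev g⁻¹.toWord := by
    rw [← FreeGroup.toWord_inv, inv_inv]
  rcases toWord_el_mul (flipL e) g⁻¹ with ⟨t, h1, h2⟩ | ⟨h1, h2⟩
  · refine Or.inl ⟨FreeGroup.invRev t, ?_, by rw [key, h2]⟩
    rw [hw, h1, flipL_flipL]
    simp [FreeGroup.invRev, flipL]
  · refine Or.inr ⟨?_, ?_⟩
    · intro hl
      apply h1
      rw [FreeGroup.toWord_inv]
      simp only [FreeGroup.invRev, List.head?_reverse, List.getLast?_map, hl, Option.map_some]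
      rfl
    · rw [key, h2, hw]
      simp [FreeGroup.invRev, flipL, List.map_map]

/-- The first letter applied by `g` (the last letter of its word). -/
def firstStep (g : FreeGroup I) : Option (I × Bool) := g.toWord.getLast?

theorem firstStep_one : firstStep (1 : FreeGroup I) = none := by simp [firstStep]

theorem firstStep_el (e : I × Bool) : firstStep (el e) = some e := by
  simp [firstStep, toWord_el]

theorem norm_el_mul_le (e : I × Bool) (g : FreeGroup I) :
    FreeGroup.norm (el e * g) ≤ FreeGroup.norm g + 1 :=
  (FreeGroup.norm_mul_le _ _).trans (by rw [norm_el]; omega)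

theorem norm_mul_el_le (g : FreeGroup I) (e : I × Bool) :
    FreeGroup.norm (g * el e) ≤ FreeGroup.norm g + 1 :=
  (FreeGroup.norm_mul_le _ _).trans (by rw [norm_el])

theorem norm_le_el_mul (e : I × Bool) (g : FreeGroup I) :
    FreeGroup.norm g ≤ FreeGroup.norm (el e * g) + 1 := by
  have := norm_el_mul_le (flipL e) (el e * g)
  rwa [el_flipL, inv_mul_cancel_left] at this

theorem norm_le_mul_el (g : FreeGroup I) (e : I × Bool) :
    FreeGroup.norm g ≤ FreeGroup.norm (g * el e) + 1 := by
  have := norm_mul_el_le (g * el e) (flipL e)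
  rwa [el_flipL, mul_inv_cancel_right] at this

/-- Reduced words of length at most `L`. -/
abbrev Short (I : Type) [DecidableEq I] (L : ℕ) : Type :=
  {g : FreeGroup I // FreeGroup.norm g ≤ L}

instance finite_short [Finite I] (L : ℕ) : Finite (Short I L) := by
  refine Finite.of_injective
    (fun (g : Short I L) (i : Fin L) => g.1.toWord[(i : ℕ)]?) fun g g' h => ?_
  refine Subtype.ext (FreeGroup.toWord_injective (List.ext_getElem? fun n => ?_))
  rcases lt_or_ge n L with hn | hn
  · exact congrFun h ⟨n, hn⟩
  · have h1 : g.1.toWord.length ≤ n := le_trans g.2 hn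
    have h2 : g'.1.toWord.length ≤ n := le_trans g'.2 hn
    rw [List.getElem?_eq_none h1, List.getElem?_eq_none h2]

/-- The partial translation by a generator. -/
def transEquiv (L : ℕ) (i : I) :
    {g : Short I L // FreeGroup.norm (FreeGroup.of i * g.1) ≤ L} ≃
      {g : Short I L // FreeGroup.norm ((FreeGroup.of i)⁻¹ * g.1) ≤ L} where
  toFun g := ⟨⟨FreeGroup.of i * g.1.1, g.2⟩, by simpa using g.1.2⟩
  invFun g := ⟨⟨(FreeGroup.of i)⁻¹ * g.1.1, g.2⟩, by simpa using g.1.2⟩
  left_inv g := by simp
  right_inv g := by simp

/-- The permutation of short words given by a generator. -/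
noncomputable def gen [Finite I] (L : ℕ) (i : I) : Equiv.Perm (Short I L) :=
  haveI : Fintype (Short I L) := Fintype.ofFinite _
  (transEquiv L i).extendSubtype

theorem gen_apply [Finite I] {L : ℕ} {i : I} {g : Short I L}
    (h : FreeGroup.norm (FreeGroup.of i * g.1) ≤ L) :
    (gen L i g).1 = FreeGroup.of i * g.1 := by
  unfold gen
  rw [Equiv.extendSubtype_apply_of_mem (p := fun g : Short I L =>
    FreeGroup.norm (FreeGroup.of i * g.1) ≤ L) (transEquiv L i) g h]
  rfl

/-- The homomorphism to the permutations of short words. -/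
noncomputable def shortHom [Finite I] (L : ℕ) : FreeGroup I →* Equiv.Perm (Short I L) :=
  FreeGroup.lift (gen L)

theorem shortHom_el [Finite I] {L : ℕ} {e : I × Bool} {g : Short I L}
    (h : FreeGroup.norm (el e * g.1) ≤ L) : (shortHom L (el e) g).1 = el e * g.1 := by
  obtain ⟨i, b⟩ := e
  cases b
  · have he : el (i, false) = (FreeGroup.of i)⁻¹ := by
      rw [show ((i, false) : I × Bool) = flipL (i, true) from rfl, el_flipL]; rfl
    rw [he] at h ⊢
    set g' : Short I L := ⟨(FreeGroup.of i)⁻¹ * g.1, h⟩ with hg'
    have hgen : gen L i g' = g := Subtype.ext <| by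
      rw [gen_apply (by simpa [hg'] using g.2)]
      simp [hg']
    rw [MonoidHom.map_inv, shortHom, FreeGroup.lift_apply_of, Equiv.Perm.inv_def,
      show (gen L i).symm g = g' by rw [Equiv.symm_apply_eq, hgen]]
  · have he : el (i, true) = FreeGroup.of i := rfl
    rw [he] at h ⊢
    rw [shortHom, FreeGroup.lift_apply_of, gen_apply h]

/-- No nontrivial word of length at most `L` acts trivially. -/
theorem shortHom_injOn [Finite I] {L : ℕ} {g : FreeGroup I} (h : FreeGroup.norm g ≤ L)
    (h1 : shortHom L g = 1) : g = 1 := by
  have key : ∀ (n : ℕ) (g : FreeGroup I), g.toWord.length = n → n ≤ L →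
      (shortHom L g ⟨1, by simp⟩).1 = g := by
    intro n
    induction n with
    | zero =>
      intro g hg _
      rw [List.length_eq_zero_iff, FreeGroup.toWord_eq_nil_iff] at hg
      simp [hg]
    | succ n ih =>
      intro g hg hn
      obtain ⟨e, t, hw⟩ := List.exists_cons_of_length_eq_add_one hg
      have hge : g = el e * FreeGroup.mk t := by
        rw [el, FreeGroup.mul_mk, List.singleton_append, ← hw, FreeGroup.mk_toWord]
      have ht : (FreeGroup.mk t).toWord = t := by
        rw [FreeGroup.toWord_mk]
        have hr : FreeGroup.IsReduced (e :: t) := hw ▸ FreeGroup.isReduced_toWord (x := g)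
        exact (show FreeGroup.IsReduced t from List.IsChain.tail hr).reduce_eq
      have hlen : t.length = n := by rw [hw] at hg; simpa using hg
      have h' := ih (FreeGroup.mk t) (by rw [ht, hlen]) (by omega)
      rw [hge, MonoidHom.map_mul, Equiv.Perm.mul_apply, shortHom_el, h']
      rw [h', ← hge]
      simpa [FreeGroup.norm, hg] using hn
  have := key _ g rfl h
  rw [h1] at this
  exact this.symm

end Vale.Agent.P090
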