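import Vale.Agent.P090.Free
import Vale.Agent.P090.Words
import Vale.Agent.P090.Gap

/-!
The metric space: for each `k`, countably many covers of a graph of high girth with some edges
cut, joined through one anchor per base vertex.
-/

namespace Vale.Agent.P090

/-- The bound on the norm handled by the piece `k`. -/
def lam (k : ℕ) : ℕ := k + 2

/-- The number of cut letters. -/
def numCut (k : ℕ) : ℕ := 40 * lam k

/-- The number of copies of each affine letter. -/
def numCopy (k : ℕ) : ℕ := 80 * numCut k * lam k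

theorem numCut_eq (k : ℕ) : numCut k = 40 * lam k := rfl

theorem numCopy_eq (k : ℕ) : numCopy k = 80 * numCut k * lam k := rfl

/-- A large absolute constant. -/
def big : ℕ := 10000

theorem big_eq : big = 10000 := rfl

attribute [irreducible] big

/-- The distance to the anchors. -/
def anchorLen (k : ℕ) : ℕ := big * lam k

/-- The radius of the kernels. -/
def rad (k : ℕ) : ℕ := big * lam k * anchorLen k

attribute [irreducible] numCut numCopy

/-- The cap on distances inside a piece. -/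
def cap (k : ℕ) : ℕ := 2 * rad k

/-- The letters. -/
abbrev Letter (k : ℕ) : Type := (Fin 4 × Fin (numCopy k)) ⊕ Fin (numCut k)

/-- The base group. -/
abbrev Base (k : ℕ) : Type := Equiv.Perm (Short (Letter k) (4 * rad k + 4))

/-- The base action. -/
noncomputable def rho (k : ℕ) : FreeGroup (Letter k) →* Base k := shortHom _

/-- The levels of the fibres: distinct large primes. -/
noncomputable def pr (k j : ℕ) : ℕ := Nat.nth Nat.Prime (j + big * lam k)

theorem pr_prime (k j : ℕ) : (pr k j).Prime :=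
  Nat.nth_mem_of_infinite Nat.infinite_setOfPred_prime _

theorem big_le_pr (k j : ℕ) : big * lam k ≤ pr k j :=
  (Nat.le_add_left (big * lam k) j).trans ((Nat.nth_strictMono Nat.infinite_setOfPred_prime).id_le _)

theorem pr_injective (k : ℕ) : Function.Injective (pr k) := fun _ _ h =>
  Nat.add_right_cancel ((Nat.nth_strictMono Nat.infinite_setOfPred_prime).injective h)

attribute [irreducible] pr

instance neZero_pr (k j : ℕ) : NeZero (pr k j) := ⟨(pr_prime k j).ne_zero⟩

theorem pr_coprime (k : ℕ) {a b : ℕ} (h : a ≠ b) : Nat.Coprime (pr k a) (pr k b) :=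
  (Nat.coprime_primes (pr_prime k a) (pr_prime k b)).mpr fun e => h (pr_injective k e)

/-- The fibre at level `j`. -/
abbrev Fib (k j : ℕ) : Type := ZMod (pr k j) × ZMod (pr k j)

/-- The marked half of a fibre. -/
def Marked (k j : ℕ) (v : Fib k j) : Prop := v.1.val < pr k j / 2

/-- The action of a letter on a fibre. -/
noncomputable def piGen (k j : ℕ) : Letter k → Equiv.Perm (Fib k j)
  | Sum.inl a => gg a.1
  | Sum.inr _ => 1

/-- The fibre action. -/
noncomputable def fibHom (k j : ℕ) : FreeGroup (Letter k) →* Equiv.Perm (Fib k j) :=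
  FreeGroup.lift (piGen k j)

/-- The edges of the letter `i` present at the fibre coordinate `v`. -/
def Present (k j : ℕ) : Letter k → Fib k j → Prop
  | Sum.inl _, _ => True
  | Sum.inr _, v => Marked k j v

theorem fibHom_cut {k j : ℕ} (c : Fin (numCut k)) (b : Bool) :
    fibHom k j (el (Sum.inr c, b)) = 1 := by
  cases b
  · rw [show ((Sum.inr c, false) : Letter k × Bool) = flipL (Sum.inr c, true) from rfl, el_flipL,
      MonoidHom.map_inv]
    rw [show fibHom k j (el (Sum.inr c, true)) = 1 from FreeGroup.lift_apply_of]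
    exact inv_one
  · exact FreeGroup.lift_apply_of

theorem present_act {k j : ℕ} (e : Letter k × Bool) (v : Fib k j) :
    Present k j e.1 (fibHom k j (el e) v) ↔ Present k j e.1 v := by
  obtain ⟨i, b⟩ := e
  cases i with
  | inl a => exact Iff.rfl
  | inr c => rw [fibHom_cut]; rfl

/-- The points of a piece: lifts and anchors. -/
abbrev Pt (k : ℕ) : Type := (Σ j : ℕ, Base k × Fib k j) ⊕ Base k

/-- The endpoint of the edge of a signed letter. -/
noncomputable def move (k : ℕ) (e : Letter k × Bool) (j : ℕ) (z : Base k) (v : Fib k j) : Pt k :=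
  Sum.inl ⟨j, rho k (el e) * z, fibHom k j (el e) v⟩

/-- Functions obeying the edge lengths of a piece. -/
structure Adm (k : ℕ) (φ : Pt k → ℝ) : Prop where
  anchor : ∀ j z v, |φ (Sum.inl ⟨j, z, v⟩) - φ (Sum.inr z)| ≤ anchorLen k
  edge : ∀ j z v (e : Letter k × Bool), Present k j e.1 v →
    |φ (move k e j z v) - φ (Sum.inl ⟨j, z, v⟩)| ≤ 1
  all : ∀ p q, |φ p - φ q| ≤ cap k

theorem adm_zero (k : ℕ) : Adm k 0 := ⟨by simp, by simp, by simp⟩

instance adm_nonempty (k : ℕ) : Nonempty {φ : Pt k → ℝ // Adm k φ} := ⟨⟨0, adm_zero k⟩⟩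

/-- The distance inside a piece. -/
noncomputable def pieceDist (k : ℕ) (p q : Pt k) : ℝ :=
  ⨆ φ : {φ : Pt k → ℝ // Adm k φ}, |φ.1 p - φ.1 q|

theorem abs_sub_le_pieceDist {k : ℕ} {φ : Pt k → ℝ} (h : Adm k φ) (p q : Pt k) :
    |φ p - φ q| ≤ pieceDist k p q :=
  le_ciSup (f := fun φ : {φ : Pt k → ℝ // Adm k φ} => |φ.1 p - φ.1 q|)
    ⟨cap k, by rintro _ ⟨φ, rfl⟩; exact φ.2.all p q⟩ ⟨φ, h⟩

theorem pieceDist_le {k : ℕ} {p q : Pt k} {b : ℝ}
    (h : ∀ φ, Adm k φ → |φ p - φ q| ≤ b) : pieceDist k p q ≤ b :=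
  ciSup_le fun φ => h φ.1 φ.2

theorem pieceDist_self (k : ℕ) (p : Pt k) : pieceDist k p p = 0 := by simp [pieceDist]

theorem pieceDist_comm (k : ℕ) (p q : Pt k) : pieceDist k p q = pieceDist k q p := by
  simp only [pieceDist, abs_sub_comm]

theorem pieceDist_triangle (k : ℕ) (p q r : Pt k) :
    pieceDist k p r ≤ pieceDist k p q + pieceDist k q r :=
  pieceDist_le fun φ h => (abs_sub_le _ (φ q) _).trans
    (add_le_add (abs_sub_le_pieceDist h p q) (abs_sub_le_pieceDist h q r))

theorem pieceDist_le_cap (k : ℕ) (p q : Pt k) : pieceDist k p q ≤ cap k :=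
  pieceDist_le fun _ h => h.all p q

theorem one_le_anchorLen (k : ℕ) : 1 ≤ anchorLen k := by
  simp only [anchorLen, big_eq, lam]; omega

theorem one_le_cap (k : ℕ) : 1 ≤ cap k := by
  have := one_le_anchorLen k
  have h2 : 1 ≤ big * lam k := this
  simp only [cap, rad]
  nlinarith

open Classical in
theorem one_le_pieceDist {k : ℕ} {p q : Pt k} (h : p ≠ q) : 1 ≤ pieceDist k p q := by
  have hadm : Adm k fun r => if r = p then (1 : ℝ) else 0 := by
    have hb : ∀ r s, |(if r = p then (1 : ℝ) else 0) - if s = p then 1 else 0| ≤ 1 := fun r s => by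
      split_ifs <;> simp
    exact ⟨fun _ _ _ => (hb _ _).trans (by exact_mod_cast one_le_anchorLen k),
      fun _ _ _ _ _ => hb _ _, fun _ _ => (hb _ _).trans (by exact_mod_cast one_le_cap k)⟩
  refine le_trans (le_of_eq ?_) (abs_sub_le_pieceDist hadm p q)
  simp [Ne.symm h]

/-- The space: all pieces, far apart. -/
def Space : Type := Σ k : ℕ, Pt k

instance : Countable Space := by unfold Space; infer_instance

open Classical in
/-- The distance of the space. -/
noncomputable def spaceDist (x y : Space) : ℝ :=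
  if h : x.1 = y.1 then pieceDist y.1 (h ▸ x.2) y.2 else cap x.1 + cap y.1

theorem spaceDist_same (k : ℕ) (p q : Pt k) : spaceDist ⟨k, p⟩ ⟨k, q⟩ = pieceDist k p q := by
  simp [spaceDist]

theorem spaceDist_ne {k k' : ℕ} (h : k ≠ k') (p : Pt k) (q : Pt k') :
    spaceDist ⟨k, p⟩ ⟨k', q⟩ = cap k + cap k' := by
  simp [spaceDist, h]

theorem spaceDist_self (x : Space) : spaceDist x x = 0 := by
  obtain ⟨k, p⟩ := x
  rw [spaceDist_same, pieceDist_self]

theorem spaceDist_comm (x y : Space) : spaceDist x y = spaceDist y x := by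
  obtain ⟨k, p⟩ := x
  obtain ⟨k', q⟩ := y
  rcases eq_or_ne k k' with rfl | h
  · rw [spaceDist_same, spaceDist_same, pieceDist_comm]
  · rw [spaceDist_ne h, spaceDist_ne h.symm, add_comm]

theorem one_le_spaceDist {x y : Space} (h : x ≠ y) : 1 ≤ spaceDist x y := by
  obtain ⟨k, p⟩ := x
  obtain ⟨k', q⟩ := y
  rcases eq_or_ne k k' with rfl | hk
  · rw [spaceDist_same]
    exact one_le_pieceDist fun e => h (by rw [e])
  · rw [spaceDist_ne hk]
    have h1 : (1 : ℝ) ≤ cap k := by exact_mod_cast one_le_cap k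
    linarith [(Nat.cast_nonneg (cap k') : (0 : ℝ) ≤ _)]

theorem spaceDist_triangle (x y z : Space) : spaceDist x z ≤ spaceDist x y + spaceDist y z := by
  obtain ⟨a, p⟩ := x
  obtain ⟨b, q⟩ := y
  obtain ⟨c, r⟩ := z
  have h0 : ∀ k (u v : Pt k), 0 ≤ pieceDist k u v := fun k u v =>
    (abs_nonneg _).trans (abs_sub_le_pieceDist (adm_zero k) u v)
  have hb : (0 : ℝ) ≤ cap b := Nat.cast_nonneg _
  rcases eq_or_ne a c with rfl | hac
  · rw [spaceDist_same]
    rcases eq_or_ne a b with rfl | hab
    · rw [spaceDist_same, spaceDist_same]; exact pieceDist_triangle _ _ _ _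
    · rw [spaceDist_ne hab, spaceDist_ne hab.symm]
      linarith [pieceDist_le_cap a p r]
  · rw [spaceDist_ne hac]
    rcases eq_or_ne a b with rfl | hab
    · rw [spaceDist_same, spaceDist_ne hac]
      linarith [h0 a p q]
    · rcases eq_or_ne b c with rfl | hbc
      · rw [spaceDist_same, spaceDist_ne hab]
        linarith [h0 b q r]
      · rw [spaceDist_ne hab, spaceDist_ne hbc]
        linarith

noncomputable instance : MetricSpace Space where
  dist := spaceDist
  dist_self := spaceDist_self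
  dist_comm := spaceDist_comm
  dist_triangle := spaceDist_triangle
  eq_of_dist_eq_zero := fun {x y} h => by
    by_contra hne
    linarith [one_le_spaceDist hne, h.le]

theorem space_separated {x y : Space} (h : x ≠ y) : 1 ≤ dist x y := one_le_spaceDist h

/-- Functions on a piece with Lipschitz constant `L`, bounded by half of `L` times the cap. -/
structure LipP (k : ℕ) (ψ : Pt k → ℝ) (L : ℝ) : Prop where
  anchor : ∀ j z v, |ψ (Sum.inl ⟨j, z, v⟩) - ψ (Sum.inr z)| ≤ L * anchorLen k
  edge : ∀ j z v (e : Letter k × Bool), Present k j e.1 v →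
    |ψ (move k e j z v) - ψ (Sum.inl ⟨j, z, v⟩)| ≤ L
  sup : ∀ p, |ψ p| ≤ L * rad k

/-- A family of signed measures playing the role of a finite-rank operator on one piece. -/
structure Op (k : ℕ) where
  /-- The common finite support. -/
  B : Finset (Pt k)
  /-- The measures. -/
  ν : Pt k → Pt k → ℝ
  edge : ∀ ψ L, 0 < L → LipP k ψ L → ∀ j z v (e : Letter k × Bool), Present k j e.1 v →
    |(∑ q ∈ B, ν (move k e j z v) q * ψ q) - ∑ q ∈ B, ν (Sum.inl ⟨j, z, v⟩) q * ψ q| ≤ lam k * L
  anchor : ∀ ψ L, 0 < L → LipP k ψ L → ∀ j z v,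
    |(∑ q ∈ B, ν (Sum.inl ⟨j, z, v⟩) q * ψ q) - ∑ q ∈ B, ν (Sum.inr z) q * ψ q| ≤
      lam k * L * anchorLen k
  fix : ∀ ψ L, 0 < L → LipP k ψ L → ∀ z,
    |(∑ q ∈ B, ν (Sum.inr z) q * ψ q) - ψ (Sum.inr z)| ≤ L

theorem exists_op (o : Space) (h : HasBAP (Free o)) : ∃ k, Nonempty (Op k) := by
  classical
  obtain ⟨l, hl⟩ := h
  refine ⟨⌈l⌉₊, ?_⟩
  set k := ⌈l⌉₊ with hk
  have : Fintype (Base k) := Fintype.ofFinite _
  set A : Finset Space := Finset.univ.image fun z : Base k => (⟨k, Sum.inr z⟩ : Space) with hA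
  obtain ⟨T, hT, hTn, hTA⟩ := hl ((A : Set Space).image (pt o))
    (A.finite_toSet.image _).isCompact (1 / 2) (by norm_num)
  obtain ⟨B, ν, hν⟩ := exists_measures o T hT hTn A (η := 1 / 2) (by norm_num)
    fun a ha => (hTA _ ⟨a, ha, rfl⟩).le
  set emb : Pt k → Space := fun p => ⟨k, p⟩ with hemb
  have hinj : Function.Injective emb := sigma_mk_injective
  set BP : Finset (Pt k) := B.preimage emb hinj.injOn with hBP
  -- extension by zero
  have key : ∀ (ψ : Pt k → ℝ) (L : ℝ), 0 < L → LipP k ψ L → ∃ φ : Space → ℝ,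
      (∀ p q, |φ p - φ q| ≤ L * dist p q) ∧ (∀ p, φ (emb p) = ψ p) ∧
        (∀ p, ∑ q ∈ B, ν (emb p) q * φ q = ∑ q ∈ BP, ν (emb p) (emb q) * ψ q) := by
    intro ψ L hL hψ
    set φ : Space → ℝ := Function.extend emb ψ 0 with hφ
    have hemb' : ∀ p, φ (emb p) = ψ p := fun p => hinj.extend_apply ψ 0 p
    have hout : ∀ x : Space, x.1 ≠ k → φ x = 0 := fun x hx =>
      Function.extend_apply' ψ (0 : Space → ℝ) x fun ⟨p, hp⟩ => hx (by rw [← hp])
    have hadm : Adm k fun p => ψ p / L := by
      have hd : ∀ {a b c : ℝ}, |a - b| ≤ L * c → |a / L - b / L| ≤ c := fun {a b c} h => by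
        rw [← sub_div, abs_div, abs_of_pos hL, div_le_iff₀ hL, mul_comm]; exact h
      refine ⟨fun j z v => hd (hψ.anchor j z v),
        fun j z v e he => hd (by simpa using hψ.edge j z v e he), fun p q => hd ?_⟩
      have := abs_sub (ψ p) (ψ q)
      have h1 := hψ.sup p
      have h2 := hψ.sup q
      simp only [cap]; push_cast
      linarith
    have hin : ∀ p q, |ψ p - ψ q| ≤ L * pieceDist k p q := fun p q => by
      have := abs_sub_le_pieceDist hadm p q
      rw [← sub_div, abs_div, abs_of_pos hL, div_le_iff₀ hL] at this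
      linarith
    refine ⟨φ, fun x y => ?_, hemb', fun p => ?_⟩
    · obtain ⟨a, u⟩ := x
      obtain ⟨b, w⟩ := y
      change _ ≤ L * spaceDist _ _
      rcases eq_or_ne a k with rfl | ha <;> rcases eq_or_ne b k with rfl | hb
      · rw [hemb', hemb', spaceDist_same]; exact hin u w
      · rw [hemb', hout ⟨b, w⟩ hb, sub_zero, spaceDist_ne (Ne.symm hb)]
        refine (hψ.sup u).trans (mul_le_mul_of_nonneg_left ?_ hL.le)
        have : (0 : ℝ) ≤ cap b := Nat.cast_nonneg _
        have e : (cap k : ℝ) = 2 * rad k := by simp [cap]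
        linarith [(Nat.cast_nonneg (rad k) : (0 : ℝ) ≤ _)]
      · rw [hout ⟨a, u⟩ ha, hemb', zero_sub, abs_neg, spaceDist_ne ha]
        refine (hψ.sup w).trans (mul_le_mul_of_nonneg_left ?_ hL.le)
        have : (0 : ℝ) ≤ cap a := Nat.cast_nonneg _
        have e : (cap k : ℝ) = 2 * rad k := by simp [cap]
        linarith [(Nat.cast_nonneg (rad k) : (0 : ℝ) ≤ _)]
      · rw [hout ⟨a, u⟩ ha, hout ⟨b, w⟩ hb, sub_zero, abs_zero]
        exact mul_nonneg hL.le (@dist_nonneg Space _ ⟨a, u⟩ ⟨b, w⟩)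
    · rw [hBP, ← Finset.sum_preimage emb B hinj.injOn (fun x => ν (emb p) x * φ x)]
      · simp only [hemb']
      · intro x _ hx
        have : φ x = 0 := Function.extend_apply' ψ (0 : Space → ℝ) x fun ⟨q, hq⟩ => hx ⟨q, hq⟩
        simp [this]
  have hlam : l + 1 ≤ lam k := by
    have := Nat.le_ceil l
    simp only [lam, hk]; push_cast; linarith
  have hpair : ∀ (ψ : Pt k → ℝ) (L : ℝ), 0 < L → LipP k ψ L → ∀ p p',
      |(∑ q ∈ BP, ν (emb p) (emb q) * ψ q) - ∑ q ∈ BP, ν (emb p') (emb q) * ψ q| ≤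
        lam k * L * pieceDist k p p' := by
    intro ψ L hL hψ p p'
    obtain ⟨φ, hφ, -, hsum⟩ := key ψ L hL hψ
    have := (hν φ L hL hφ).1 (emb p) (emb p')
    rw [hsum, hsum] at this
    refine this.trans ?_
    rw [show dist (emb p) (emb p') = pieceDist k p p' from spaceDist_same k p p']
    exact mul_le_mul_of_nonneg_right (mul_le_mul_of_nonneg_right hlam hL.le)
      ((abs_nonneg _).trans (abs_sub_le_pieceDist (adm_zero k) p p'))
  refine ⟨⟨BP, fun p q => ν (emb p) (emb q), ?_, ?_, ?_⟩⟩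
  · intro ψ L hL hψ j z v e he
    refine (hpair ψ L hL hψ _ _).trans ?_
    exact mul_le_of_le_one_right (by positivity) (pieceDist_le fun φ h => h.edge j z v e he)
  · intro ψ L hL hψ j z v
    exact (hpair ψ L hL hψ _ _).trans (mul_le_mul_of_nonneg_left
      (pieceDist_le fun φ h => h.anchor j z v) (by positivity))
  · intro ψ L hL hψ z
    obtain ⟨φ, hφ, hval, hsum⟩ := key ψ L hL hψ
    have := (hν φ L hL hφ).2 (emb (Sum.inr z)) (Finset.mem_image_of_mem _ (Finset.mem_univ z))
    rw [hsum, hval] at this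
    linarith

end Vale.Agent.P090
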